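import Vale.Agent.P181.H530.Line
import Vale.Agent.P181.T7.Last

set_option autoImplicit false

open scoped TensorProduct

/-! Adding zero rows does not change the multiplicity. -/

namespace Vale.Agent.P181.H530

open Vale.Agent.P181 Vale.Agent.P181.H280 Vale.Agent.P181.H54 Vale.Agent.P181.FR
  Vale.Agent.P181.T4 MvPolynomial

/-- Extension by zero. -/
def ext0 (n k : ℕ) (v : Fin n → ℂ) (i : Fin (n + k)) : ℂ := if h : (i : ℕ) < n then v ⟨i, h⟩ else 0

lemma ext0_cast {n k : ℕ} (v : Fin n → ℂ) (i : Fin n) : ext0 n k v (Fin.castAdd k i) = v i :=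
  dif_pos i.2

lemma ext0_nat {n k : ℕ} (v : Fin n → ℂ) (i : Fin k) : ext0 n k v (Fin.natAdd n i) = 0 :=
  dif_neg (by simp)

/-- The inclusion `ℂ^n → ℂ^(n+k)`. -/
def incl (n k : ℕ) : (Fin n → ℂ) →ₗ[ℂ] (Fin (n + k) → ℂ) where
  toFun v := ext0 n k v
  map_add' v w := by
    funext i
    simp only [ext0, Pi.add_apply]
    split_ifs
    · rfl
    · simp
  map_smul' c v := by
    funext i
    simp only [ext0, Pi.smul_apply, RingHom.id_apply]
    split_ifs
    · rfl
    · simp

/-- The projection `ℂ^(n+k) → ℂ^n`. -/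
def proj (n k : ℕ) : (Fin (n + k) → ℂ) →ₗ[ℂ] (Fin n → ℂ) where
  toFun v i := v (Fin.castAdd k i)
  map_add' _ _ := rfl
  map_smul' _ _ := rfl

lemma dotF_incl {n k : ℕ} (p : Fin (n + k) → ℂ) :
    dotF p ∘ₗ incl n k = dotF (fun i => p (Fin.castAdd k i)) := by
  apply LinearMap.ext
  intro v
  rw [LinearMap.comp_apply, dotF_apply, dotF_apply, dotProduct, Fin.sum_univ_add, dotProduct]
  have h1 : ∀ i : Fin n, incl n k v (Fin.castAdd k i) = v i := ext0_cast v
  have h2 : ∀ i : Fin k, incl n k v (Fin.natAdd n i) = 0 := ext0_nat v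
  simp only [h1, h2, mul_zero, Finset.sum_const_zero, add_zero]

lemma dotF_proj {n k : ℕ} (p : Fin n → ℂ) : dotF p ∘ₗ proj n k = dotF (ext0 n k p) := by
  apply LinearMap.ext
  intro v
  rw [LinearMap.comp_apply, dotF_apply, dotF_apply, dotProduct, dotProduct, Fin.sum_univ_add]
  simp only [ext0_cast, ext0_nat, zero_mul, Finset.sum_const_zero, add_zero]
  rfl

/-- The map on plethysms induced by the inclusion. -/
noncomputable def padMap (a b n k : ℕ) : Pleth a b n →ₗ[ℂ] Pleth a b (n + k) :=
  symMap a (symMap b (incl n k))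

/-- The map on plethysms induced by the projection. -/
noncomputable def cutMap (a b n k : ℕ) : Pleth a b (n + k) →ₗ[ℂ] Pleth a b n :=
  symMap a (symMap b (proj n k))

lemma ptv_pad {a b n k : ℕ} (x : Pleth a b n) (p : Fin a → Fin (n + k) → ℂ) :
    ptv (padMap a b n k x) p = ptv x (fun j i => p j (Fin.castAdd k i)) := by
  have h := symEval_symMap' (incl n k) (fun j => dotF (p j))
    (x : Sym[ℂ]^a (Sym[ℂ]^b (Fin n → ℂ)))
  simp only [dotF_incl] at h
  exact h

lemma ptv_cut {a b n k : ℕ} (x : Pleth a b (n + k)) (p : Fin a → Fin n → ℂ) :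
    ptv (cutMap a b n k x) p = ptv x (fun j => ext0 n k (p j)) := by
  have h := symEval_symMap' (proj n k) (fun j => dotF (p j))
    (x : Sym[ℂ]^a (Sym[ℂ]^b (Fin (n + k) → ℂ)))
  simp only [dotF_proj] at h
  exact h

/-- The padded partition. -/
def lam0 (n k : ℕ) (lam : Fin n → ℕ) : Fin (n + k) → ℕ :=
  fun i => if h : (i : ℕ) < n then lam ⟨i, h⟩ else 0

lemma lam0_cast {n k : ℕ} (lam : Fin n → ℕ) (i : Fin n) :
    lam0 n k lam (Fin.castAdd k i) = lam i := dif_pos i.2

lemma lam0_nat {n k : ℕ} (lam : Fin n → ℕ) (i : Fin k) :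
    lam0 n k lam (Fin.natAdd n i) = 0 := dif_neg (by simp)

lemma pad_mem {a b n k : ℕ} {lam : Fin n → ℕ} {x : Pleth a b n}
    (hx : x ∈ hwSpace lam (plethAct a b n)) :
    padMap a b n k x ∈ hwSpace (lam0 n k lam) (plethAct a b (n + k)) := by
  rw [mem_hwSpace_iff] at hx ⊢
  intro g hg p
  set g' : Matrix (Fin n) (Fin n) ℂ := fun i j => g (Fin.castAdd k i) (Fin.castAdd k j) with hg'
  have hB : IsBorel g' := ⟨fun i j hij =>
    hg.1 _ _ (show Fin.castAdd k j < Fin.castAdd k i from hij), fun i => hg.2 _⟩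
  have h1 : ∀ j, (fun i => Matrix.vecMul (p j) g (Fin.castAdd k i)) =
      Matrix.vecMul (fun i => p j (Fin.castAdd k i)) g' := by
    intro j
    funext i
    simp only [Matrix.vecMul, dotProduct, Fin.sum_univ_add]
    rw [Finset.sum_eq_zero (s := (Finset.univ : Finset (Fin k))), add_zero]
    intro l _
    rw [hg.1 (Fin.natAdd n l) (Fin.castAdd k i) (Fin.lt_def.2 (by
      simp only [Fin.val_castAdd, Fin.val_natAdd]
      have := i.2
      omega)), mul_zero]
  have h2 : ∏ i, g i i ^ lam0 n k lam i = ∏ i, g' i i ^ lam i := by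
    rw [Fin.prod_univ_add]
    simp only [lam0_cast, lam0_nat, pow_zero, Finset.prod_const_one, mul_one]
    rfl
  show ptv (padMap a b n k x) _ = _ * ptv (padMap a b n k x) p
  rw [ptv_pad, ptv_pad, h2]
  have h3 := hx g' hB (fun j i => p j (Fin.castAdd k i))
  rw [ptvL_apply, ptvL_apply] at h3
  rw [← h3]
  congr 1
  funext j
  exact h1 j

lemma pad_inj {a b n k : ℕ} (x : Pleth a b n) (hx : padMap a b n k x = 0) : x = 0 := by
  apply ptv_sep
  intro p
  have h := ptv_pad (k := k) x (fun j => ext0 n k (p j))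
  rw [hx, ptv_zero] at h
  refine Eq.trans ?_ (h.symm.trans (h.trans ?_))
  · refine congrArg (ptv x) ?_
    funext j i
    exact (ext0_cast (p j) i).symm
  · exact h.symm.trans (ptv_zero p).symm

lemma cut_mem {a b n k : ℕ} {lam : Fin n → ℕ} {y : Pleth a b (n + k)}
    (hy : y ∈ hwSpace (lam0 n k lam) (plethAct a b (n + k))) :
    cutMap a b n k y ∈ hwSpace lam (plethAct a b n) := by
  rw [mem_hwSpace_iff] at hy ⊢
  intro g hg p
  set g' : Matrix (Fin (n + k)) (Fin (n + k)) ℂ := fun i j =>
    if hi : (i : ℕ) < n then (if hj : (j : ℕ) < n then g ⟨i, hi⟩ ⟨j, hj⟩ else 0)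
    else if i = j then 1 else 0 with hg'
  have hB : IsBorel g' := by
    constructor
    · intro i j hij
      have hij' : (j : ℕ) < i := hij
      simp only [hg']
      by_cases hi : (i : ℕ) < n
      · rw [dif_pos hi, dif_pos (by omega)]
        exact hg.1 _ _ hij
      · rw [dif_neg hi, if_neg (by intro h; rw [h] at hij; exact lt_irrefl _ hij)]
    · intro i
      simp only [hg']
      by_cases hi : (i : ℕ) < n
      · rw [dif_pos hi, dif_pos hi]
        exact hg.2 _
      · rw [dif_neg hi]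
        simp
  have h1 : ∀ j, ext0 n k (Matrix.vecMul (p j) g) = Matrix.vecMul (ext0 n k (p j)) g' := by
    intro j
    funext i
    simp only [Matrix.vecMul, dotProduct, Fin.sum_univ_add, ext0_cast, ext0_nat, zero_mul,
      Finset.sum_const_zero, add_zero]
    by_cases hi : (i : ℕ) < n
    · have e : i = Fin.castAdd k ⟨i, hi⟩ := by ext; rfl
      have e2 : ext0 n k (Matrix.vecMul (p j) g) i = ∑ l, p j l * g l ⟨i, hi⟩ := dif_pos hi
      rw [e2]
      refine Finset.sum_congr rfl fun l _ => ?_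
      simp only [hg']
      rw [dif_pos (by simp), dif_pos hi]
      rfl
    · rw [ext0, dif_neg hi]
      symm
      refine Finset.sum_eq_zero fun l _ => ?_
      simp only [hg']
      rw [dif_pos (by simp), dif_neg hi, mul_zero]
  have h2 : ∏ i, g' i i ^ lam0 n k lam i = ∏ i, g i i ^ lam i := by
    rw [Fin.prod_univ_add]
    simp only [lam0_cast, lam0_nat, pow_zero, Finset.prod_const_one, mul_one]
    refine Finset.prod_congr rfl fun i _ => ?_
    simp only [hg']
    rw [dif_pos (by simp), dif_pos (by simp)]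
    rfl
  show ptv (cutMap a b n k y) _ = _ * ptv (cutMap a b n k y) p
  rw [ptv_cut, ptv_cut, ← h2]
  have h3 := hy g' hB (fun j => ext0 n k (p j))
  rw [ptvL_apply, ptvL_apply] at h3
  rw [← h3]
  congr 1
  funext j
  exact h1 j

lemma cut_eq_zero {a b n k : ℕ} {lam : Fin n → ℕ} {y : Pleth a b (n + k)}
    (hy : y ∈ hwSpace (lam0 n k lam) (plethAct a b (n + k))) (h0 : cutMap a b n k y = 0) :
    y = 0 := by
  rw [mem_hwSpace_iff] at hy
  apply ptv_sep
  intro q
  refine Eq.trans ?_ (ptv_zero q).symm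
  -- the line from the projection of `q` to `q`
  obtain ⟨P, hP⟩ := exists_line (ptvL_mem y) (fun j => ext0 n k (fun i => q j (Fin.castAdd k i)))
    (fun j i => if (i : ℕ) < n then 0 else q j i)
  have hc : ∀ c : ℂ, c ≠ 0 → P.eval c = ptvL a b (n + k) y q := by
    intro c hc
    set g : Matrix (Fin (n + k)) (Fin (n + k)) ℂ :=
      Matrix.diagonal (fun i => if (i : ℕ) < n then 1 else c) with hgd
    have hB : IsBorel g := by
      constructor
      · intro i j hij
        exact Matrix.diagonal_apply_ne _ (ne_of_gt hij)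
      · intro i
        rw [hgd, Matrix.diagonal_apply_eq]
        split_ifs
        · exact one_ne_zero
        · exact hc
    have h1 := hy g hB q
    have h2 : ∏ i, g i i ^ lam0 n k lam i = 1 := by
      refine Finset.prod_eq_one fun i _ => ?_
      rw [hgd, Matrix.diagonal_apply_eq]
      by_cases hi : (i : ℕ) < n
      · rw [if_pos hi, one_pow]
      · rw [lam0, dif_neg hi, pow_zero]
    rw [h2, one_mul] at h1
    rw [hP, ← h1]
    refine congrArg (ptvL a b (n + k) y) ?_
    funext j i
    rw [hgd, Matrix.vecMul_diagonal]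
    by_cases hi : (i : ℕ) < n
    · rw [ext0, dif_pos hi, if_pos hi, if_pos hi, mul_zero, add_zero, mul_one]
      rfl
    · rw [ext0, dif_neg hi, if_neg hi, if_neg hi, zero_add, mul_comm]
  have hPC : P = Polynomial.C (ptvL a b (n + k) y q) := by
    apply Polynomial.eq_of_infinite_eval_eq
    apply Set.Infinite.mono (s := ({0} : Set ℂ)ᶜ)
    · intro c hc'
      rw [Set.mem_compl_iff, Set.mem_singleton_iff] at hc'
      show P.eval c = _
      rw [hc c hc', Polynomial.eval_C]
    · exact (Set.finite_singleton (0 : ℂ)).infinite_compl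
  have h0' := hP 0
  rw [hPC, Polynomial.eval_C] at h0'
  have h4 : ptv (cutMap a b n k y) (fun j i => q j (Fin.castAdd k i)) = 0 := by
    rw [h0, ptv_zero]
  rw [ptv_cut] at h4
  rw [ptvL_apply] at h0'
  rw [h0']
  simp only [zero_mul, add_zero]
  rw [ptvL_apply]
  exact h4

theorem pad_stmt : T7.PadStmt := by
  intro a b n k lam
  show plethMult a b (n + k) (lam0 n k lam) = plethMult a b n lam
  unfold plethMult
  apply le_antisymm
  · exact finrank_le_of_inj (cutMap a b n k) _ _ (fun y hy => cut_mem hy)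
      (fun y hy h0 => cut_eq_zero hy h0)
  · exact finrank_le_of_inj (padMap a b n k) _ _ (fun y hy => pad_mem hy)
      (fun y _ h0 => pad_inj y h0)

end Vale.Agent.P181.H530
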