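import Vale.Agent.P181.H530.Line
import Vale.Agent.P181.T7.Last

set_option autoImplicit false

open scoped TensorProduct

/-! Which weights can occur. -/

namespace Vale.Agent.P181.H530

open Vale.Agent.P181 Vale.Agent.P181.H280 Vale.Agent.P181.H54 Vale.Agent.P181.FR
  Vale.Agent.P181.T4 MvPolynomial

lemma exists_ne_of_plethMult {a b n : ℕ} {lam : Fin n → ℕ} (h : plethMult a b n lam ≠ 0) :
    ∃ (G : Fn a n) (p : Fin a → Fin n → ℂ), G ∈ MP a n b ∧ HWF a n lam G ∧ G p ≠ 0 := by
  by_contra hcon
  push Not at hcon
  apply h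
  have h1 : hwSpace lam (plethAct a b n) = ⊥ := by
    rw [eq_bot_iff]
    intro x hx
    rw [Submodule.mem_bot]
    apply ptv_sep
    intro p
    refine Eq.trans ?_ (ptv_zero p).symm
    exact hcon (ptvL a b n x) p (ptvL_mem x) ((mem_hwSpace_iff x).1 hx)
  rw [plethMult, h1]
  exact finrank_bot ℂ _

lemma sum_of {a b n : ℕ} {lam : Fin n → ℕ} {G : Fn a n} {p : Fin a → Fin n → ℂ}
    (hG : G ∈ MP a n b) (hH : HWF a n lam G) (hp : G p ≠ 0) : ∑ i, lam i = a * b := by
  have hB : IsBorel (Matrix.diagonal (fun _ : Fin n => (2 : ℂ))) :=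
    ⟨fun i j hij => Matrix.diagonal_apply_ne _ (ne_of_gt hij), fun i => by
      rw [Matrix.diagonal_apply_eq]; exact two_ne_zero⟩
  have h1 := hH _ hB p
  have h2 : (fun j => Matrix.vecMul (p j) (Matrix.diagonal (fun _ : Fin n => (2 : ℂ)))) =
      fun j i => 2 * p j i := by
    funext j i
    rw [Matrix.vecMul_diagonal, mul_comm]
  rw [h2, hom_smul hG] at h1
  have h3 := mul_right_cancel₀ hp h1
  simp only [Matrix.diagonal_apply_eq, Finset.prod_pow_eq_pow_sum] at h3
  have h4 : (2 : ℕ) ^ (a * b) = 2 ^ (∑ i, lam i) := by exact_mod_cast h3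
  exact (Nat.pow_right_injective le_rfl h4).symm

/-- A polynomial `P` with `P(1/s) = R(s)`, `R(0) = 0`, is zero. -/
lemma eq_zero_of_inv {P R : Polynomial ℂ} (h : ∀ s : ℂ, s ≠ 0 → P.eval s⁻¹ = R.eval s)
    (h0 : R.eval 0 = 0) : P = 0 := by
  have h1 : P.reverse = Polynomial.X ^ P.natDegree * R := by
    apply Polynomial.eq_of_infinite_eval_eq
    apply Set.Infinite.mono (s := ({0} : Set ℂ)ᶜ)
    · intro s hs
      rw [Set.mem_compl_iff, Set.mem_singleton_iff] at hs
      let : Invertible (s⁻¹) := invertibleOfNonzero (inv_ne_zero hs)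
      have h2' := Polynomial.eval₂_reverse_mul_pow (RingHom.id ℂ) s⁻¹ P
      rw [invOf_eq_inv, inv_inv] at h2'
      have h2 : P.reverse.eval s * (s⁻¹) ^ P.natDegree = P.eval s⁻¹ := h2'
      rw [h s hs] at h2
      show P.reverse.eval s = _
      rw [Polynomial.eval_mul, Polynomial.eval_pow, Polynomial.eval_X, ← h2, mul_comm, mul_assoc,
        ← mul_pow, inv_mul_cancel₀ hs, one_pow, mul_one]
    · exact (Set.finite_singleton (0 : ℂ)).infinite_compl
  have h3 := congrArg (Polynomial.eval 0) h1
  rw [Polynomial.eval_mul, h0, mul_zero, ← Polynomial.coeff_zero_eq_eval_zero,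
    Polynomial.coeff_zero_reverse] at h3
  exact Polynomial.leadingCoeff_eq_zero.1 h3

lemma anti_of {a b n : ℕ} {lam : Fin n → ℕ} {G : Fn a n} {p : Fin a → Fin n → ℂ}
    (hG : G ∈ MP a n b) (hH : HWF a n lam G) (hp : G p ≠ 0) {i j : Fin n} (hij : i < j) :
    lam j ≤ lam i := by
  by_contra hlt
  push Not at hlt
  have hne : i ≠ j := ne_of_lt hij
  obtain ⟨P, hP⟩ := exists_line hG p (fun t l => if l = i then p t j else 0)
  obtain ⟨Q, hQ⟩ := exists_line hG
    (fun t l => if l = i then p t j else if l = j then p t i else p t l)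
    (fun t l => if l = i then p t i else 0)
  have hP0 : P = 0 := by
    apply eq_zero_of_inv (R := Polynomial.C ((-1) ^ lam j) * Polynomial.X ^ (lam j - lam i) * Q)
    · intro s hs
      set g : Matrix (Fin n) (Fin n) ℂ := fun k l =>
        if k = i ∧ l = j then 1 else if k = l then (if k = i then s⁻¹ else if k = j then -s else 1)
        else 0 with hg
      have hB : IsBorel g := by
        constructor
        · intro k l hkl
          simp only [hg]
          rw [if_neg, if_neg (ne_of_gt hkl)]
          rintro ⟨rfl, rfl⟩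
          exact absurd hij (not_lt.2 hkl.le)
        · intro k
          simp only [hg]
          rw [if_neg (by rintro ⟨rfl, h⟩; exact hne h), if_pos trivial]
          split_ifs
          · exact inv_ne_zero hs
          · exact neg_ne_zero.2 hs
          · exact one_ne_zero
      have h1 := hH g hB (fun t l => (if l = i then p t j else if l = j then p t i else p t l) +
        s * (if l = i then p t i else 0))
      rw [← hQ] at h1
      have h2 : ∏ k, g k k ^ lam k = (-1) ^ lam j * s ^ (lam j - lam i) := by
        have h3 : ∀ k, g k k ^ lam k = (if k = i then (s⁻¹) ^ lam i else 1) *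
            (if k = j then (-s) ^ lam j else 1) := by
          intro k
          simp only [hg]
          rw [if_neg (by rintro ⟨rfl, h⟩; exact hne h), if_pos trivial]
          by_cases hk : k = i
          · subst hk
            simp [hne]
          · by_cases hk' : k = j
            · subst hk'
              simp [hk]
            · simp [hk, hk']
        rw [Finset.prod_congr rfl fun k _ => h3 k, Finset.prod_mul_distrib,
          Finset.prod_ite_eq' Finset.univ i, Finset.prod_ite_eq' Finset.univ j]
        simp only [Finset.mem_univ, if_true]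
        have e : (s : ℂ) ^ lam j = s ^ lam i * s ^ (lam j - lam i) := by
          rw [← pow_add]
          congr 1
          omega
        rw [neg_pow, e, inv_pow]
        have hsi : s ^ lam i ≠ 0 := pow_ne_zero _ hs
        field_simp
      rw [h2] at h1
      rw [Polynomial.eval_mul, Polynomial.eval_mul, Polynomial.eval_C, Polynomial.eval_pow,
        Polynomial.eval_X, ← h1, hP]
      have hz : ∀ k l, ¬ (k = i ∧ l = j) → k ≠ l → g k l = 0 := by
        intro k l h1 h2
        simp only [hg]
        rw [if_neg h1, if_neg h2]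
      have gii : g i i = s⁻¹ := by
        simp only [hg]
        rw [if_neg (fun h => hne h.2), if_pos trivial, if_pos trivial]
      have gij : g i j = 1 := if_pos ⟨rfl, rfl⟩
      have gjj : g j j = -s := by
        simp only [hg]
        rw [if_neg (fun h => hne h.1.symm), if_pos trivial, if_neg hne.symm, if_pos trivial]
      have gkk : ∀ k, k ≠ i → k ≠ j → g k k = 1 := by
        intro k h1 h2
        simp only [hg]
        rw [if_neg (fun h => h1 h.1), if_pos trivial, if_neg h1, if_neg h2]
      refine congrArg G ?_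
      funext t l
      simp only [Matrix.vecMul, dotProduct]
      by_cases hl : l = i
      · rw [hl, Finset.sum_eq_single i]
        · rw [gii, if_pos rfl, if_pos rfl, if_pos rfl]
          field_simp
          ring
        · intro k _ hk
          rw [hz k i (fun h => hk h.1) hk, mul_zero]
        · intro h
          exact absurd (Finset.mem_univ _) h
      · by_cases hl' : l = j
        · rw [hl', Finset.sum_eq_add i j hne]
          · rw [gij, gjj, if_pos rfl, if_neg hne.symm, if_pos rfl, if_neg hne.symm, if_pos rfl,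
              if_neg hne.symm]
            ring
          · rintro k _ ⟨h1, h2⟩
            rw [hz k j (fun h => h1 h.1) h2, mul_zero]
          · intro h
            exact absurd (Finset.mem_univ _) h
          · intro h
            exact absurd (Finset.mem_univ _) h
        · rw [Finset.sum_eq_single l]
          · rw [gkk l hl hl', if_neg hl, if_neg hl, if_neg hl', if_neg hl, mul_zero, mul_zero,
              mul_one]
          · intro k _ hk
            rw [hz k l (fun h => hl' h.2) hk, mul_zero]
          · intro h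
            exact absurd (Finset.mem_univ _) h
    · rw [Polynomial.eval_mul, Polynomial.eval_mul, Polynomial.eval_pow, Polynomial.eval_X,
        zero_pow (by omega), mul_zero, zero_mul]
  apply hp
  have h := hP 0
  rw [hP0, Polynomial.eval_zero] at h
  simp only [zero_mul, add_zero] at h
  exact h.symm

lemma zero_of {a b n : ℕ} {lam : Fin n → ℕ} {G : Fn a n} {p : Fin a → Fin n → ℂ}
    (hG : G ∈ MP a n b) (hH : HWF a n lam G) (hp : G p ≠ 0) {i₀ : Fin n} (hi : a ≤ (i₀ : ℕ)) :
    lam i₀ = 0 := by
  have han : a ≤ n := by have := i₀.2; omega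
  -- a point with an invertible block
  obtain ⟨P, hP⟩ := exists_line hG p (fun t l => if (l : ℕ) = t then 1 else 0)
  set A₀ : Matrix (Fin a) (Fin a) ℂ := fun t l => p t (Fin.castLE han l) with hA₀
  have hP0 : P ≠ 0 := by
    intro h0
    have := hP 0
    rw [h0, Polynomial.eval_zero] at this
    simp only [zero_mul, add_zero] at this
    exact hp this.symm
  have hc0 : (-A₀).charpoly ≠ 0 := (Matrix.charpoly_monic _).ne_zero
  obtain ⟨c, hc⟩ : ∃ c : ℂ, (P * (-A₀).charpoly).eval c ≠ 0 := by
    by_contra hcon
    push Not at hcon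
    exact mul_ne_zero hP0 hc0 (Polynomial.funext fun c => by rw [hcon c, Polynomial.eval_zero])
  rw [Polynomial.eval_mul] at hc
  have hPc := left_ne_zero_of_mul hc
  have hdet := right_ne_zero_of_mul hc
  rw [hP] at hPc
  set q : Fin a → Fin n → ℂ := fun t l => p t l + c * (if (l : ℕ) = t then 1 else 0) with hq
  set A : Matrix (Fin a) (Fin a) ℂ := fun t l => q t (Fin.castLE han l) with hA
  have hAdet : A.det ≠ 0 := by
    rw [Matrix.eval_charpoly] at hdet
    have e : A = (Matrix.scalar (Fin a)) c - -A₀ := by
      ext t l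
      have e1 : ((Matrix.scalar (Fin a)) c - -A₀) t l =
          (Matrix.scalar (Fin a)) c t l - -(p t (Fin.castLE han l)) := rfl
      have e2 : A t l = p t (Fin.castLE han l) + c * (if (l : ℕ) = t then 1 else 0) := rfl
      rw [e1, e2, Matrix.scalar_apply, Matrix.diagonal_apply]
      by_cases h : t = l
      · rw [if_pos h, if_pos (by rw [h])]
        ring
      · rw [if_neg h, if_neg (fun h' => h (Fin.ext h'.symm))]
        ring
    rw [e]
    exact hdet
  set w' : Fin a → ℂ := A⁻¹.mulVec (fun t => q t i₀) with hw'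
  have hAw : A.mulVec w' = fun t => q t i₀ := by
    rw [hw', Matrix.mulVec_mulVec, Matrix.mul_nonsing_inv A (isUnit_iff_ne_zero.2 hAdet),
      Matrix.one_mulVec]
  set w : Fin n → ℂ := fun l => if h : (l : ℕ) < a then w' ⟨l, h⟩ else 0 with hw
  have hqw : ∀ t, ∑ l, q t l * w l = q t i₀ := by
    intro t
    have h1 := congrFun hAw t
    rw [Matrix.mulVec, dotProduct] at h1
    rw [← h1]
    obtain ⟨k, rfl⟩ := Nat.exists_eq_add_of_le han
    rw [Fin.sum_univ_add]
    have e1 : ∀ l : Fin a, w (Fin.castAdd k l) = w' l := fun l => dif_pos l.2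
    have e2 : ∀ l : Fin k, w (Fin.natAdd a l) = 0 := fun l => dif_neg (by simp)
    simp only [e1, e2, mul_zero, Finset.sum_const_zero, add_zero]
    rfl
  -- clearing the column `i₀`
  set g : Matrix (Fin n) (Fin n) ℂ := fun k l => (if k = l then 1 else 0) -
    (if l = i₀ then w k else 0) with hg
  have hwi : ∀ k : Fin n, a ≤ (k : ℕ) → w k = 0 := fun k hk => dif_neg (by omega)
  have hdiag : ∀ k, g k k = 1 := by
    intro k
    simp only [hg]
    rw [if_pos trivial]
    by_cases hk : k = i₀
    · rw [if_pos hk, hk, hwi i₀ hi, sub_zero]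
    · rw [if_neg hk, sub_zero]
  have hB : IsBorel g := by
    refine ⟨fun k l hkl => ?_, fun k => by rw [hdiag]; exact one_ne_zero⟩
    simp only [hg]
    rw [if_neg (ne_of_gt hkl), zero_sub, neg_eq_zero]
    by_cases hl : l = i₀
    · rw [if_pos hl, hwi k (by
        have : (l : ℕ) < k := hkl
        rw [hl] at this
        omega)]
    · rw [if_neg hl]
  have hGr := hH g hB q
  simp only [hdiag, one_pow, Finset.prod_const_one, one_mul] at hGr
  set r : Fin a → Fin n → ℂ := fun t => Matrix.vecMul (q t) g with hr
  have hri : ∀ t, r t i₀ = 0 := by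
    intro t
    simp only [hr, Matrix.vecMul, dotProduct, hg, mul_sub, Finset.sum_sub_distrib]
    simp only [if_true, hqw, mul_ite, mul_one, mul_zero, Finset.sum_ite_eq', Finset.mem_univ]
    ring
  -- scaling the column `i₀`
  have hB2 : IsBorel (Matrix.diagonal (fun l : Fin n => if l = i₀ then (2 : ℂ) else 1)) :=
    ⟨fun k l hkl => Matrix.diagonal_apply_ne _ (ne_of_gt hkl), fun k => by
      rw [Matrix.diagonal_apply_eq]
      split_ifs
      · exact two_ne_zero
      · exact one_ne_zero⟩
  have h5 := hH _ hB2 r
  have h6 : (fun t => Matrix.vecMul (r t)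
      (Matrix.diagonal (fun l : Fin n => if l = i₀ then (2 : ℂ) else 1))) = r := by
    funext t l
    rw [Matrix.vecMul_diagonal]
    by_cases hl : l = i₀
    · rw [hl, hri t, zero_mul]
    · rw [if_neg hl, mul_one]
  rw [h6] at h5
  have h7 : (∏ i, (Matrix.diagonal (fun l : Fin n => if l = i₀ then (2 : ℂ) else 1)) i i ^ lam i) =
      2 ^ lam i₀ := by
    rw [Finset.prod_eq_single i₀]
    · rw [Matrix.diagonal_apply_eq, if_pos rfl]
    · intro k _ hk
      rw [Matrix.diagonal_apply_eq, if_neg hk, one_pow]
    · intro h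
      exact absurd (Finset.mem_univ _) h
  rw [h7, hGr] at h5
  have h8 : (2 : ℂ) ^ lam i₀ = 1 := by
    have h9 : (1 : ℂ) * G q = 2 ^ lam i₀ * G q := by rw [one_mul]; exact h5
    exact (mul_right_cancel₀ hPc h9).symm
  have h10 : (2 : ℕ) ^ lam i₀ = 2 ^ 0 := by exact_mod_cast h8
  exact Nat.pow_right_injective le_rfl h10

theorem zero_stmt : T7.ZeroStmt := by
  intro a b n lam h
  obtain ⟨G, p, hG, hH, hp⟩ := exists_ne_of_plethMult h
  refine ⟨?_, sum_of hG hH hp, fun i hi => zero_of hG hH hp hi⟩
  intro i j hij
  rcases hij.lt_or_eq with h | h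
  · exact anti_of hG hH hp h
  · rw [h]

end Vale.Agent.P181.H530
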