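import Vale.Agent.P181.Z.H463.Ideal
import Vale.Agent.P181.Z.H188.Pos
import Vale.Agent.P181.H411.Seam

set_option autoImplicit false

/-!
# P181, [Z]: from kernels to multiplicities
-/

open scoped TensorProduct

namespace Vale.Agent.P181.H530.Alg

open Vale.Agent.P181 Vale.Agent.P181.H280 Vale.Agent.P181.Z463

/-- Linear algebra: if `G ∘ F` kills nothing in the image of `F`, then an inequality for the
kernels gives an inequality for the subspaces. -/
lemma finrank_le_of_ker {M M' : Type*} [AddCommGroup M] [Module ℂ M] [Module.Finite ℂ M]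
    [AddCommGroup M'] [Module ℂ M'] [Module.Finite ℂ M'] (F : M →ₗ[ℂ] M') (G : M' →ₗ[ℂ] M)
    (H1 : Submodule ℂ M) (H2 : Submodule ℂ M') (hF : ∀ x ∈ H1, F x ∈ H2)
    (hpos : ∀ x, G (F x) = 0 → F x = 0)
    (hk : Module.finrank ℂ (LinearMap.ker F ⊓ H1 : Submodule ℂ M) ≤
      Module.finrank ℂ (LinearMap.ker G ⊓ H2 : Submodule ℂ M')) :
    Module.finrank ℂ H1 ≤ Module.finrank ℂ H2 := by
  have h1 := LinearMap.finrank_range_add_finrank_ker (F.domRestrict H1)
  have h2 : Module.finrank ℂ (LinearMap.ker (F.domRestrict H1)) =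
      Module.finrank ℂ (LinearMap.ker F ⊓ H1 : Submodule ℂ M) := by
    have h3 : (LinearMap.ker (F.domRestrict H1)).map H1.subtype = LinearMap.ker F ⊓ H1 := by
      ext x
      constructor
      · rintro ⟨y, hy, rfl⟩
        exact ⟨hy, y.2⟩
      · rintro ⟨hx, hx1⟩
        exact ⟨⟨x, hx1⟩, hx, rfl⟩
    rw [← h3]
    exact LinearEquiv.finrank_eq (Submodule.equivMapOfInjective H1.subtype
      H1.injective_subtype (LinearMap.ker (F.domRestrict H1)))
  have h4 := Submodule.finrank_sup_add_finrank_inf_eq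
    (LinearMap.range (F.domRestrict H1)) (LinearMap.ker G ⊓ H2)
  have h5 : LinearMap.range (F.domRestrict H1) ⊓ (LinearMap.ker G ⊓ H2) = ⊥ := by
    rw [eq_bot_iff]
    rintro _ ⟨⟨x, rfl⟩, hx, -⟩
    exact hpos x hx
  have h6 : Module.finrank ℂ (LinearMap.range (F.domRestrict H1) ⊔ (LinearMap.ker G ⊓ H2) :
      Submodule ℂ M') ≤ Module.finrank ℂ H2 := by
    apply Submodule.finrank_mono
    refine sup_le ?_ inf_le_right
    rintro _ ⟨x, rfl⟩
    exact hF x x.2
  rw [h5, finrank_bot] at h4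
  omega

/-- The same without subtraction. -/
lemma finrank_le_of_ker' {M M' : Type*} [AddCommMonoid M] [Module ℂ M] [Module.Finite ℂ M]
    [AddCommMonoid M'] [Module ℂ M'] [Module.Finite ℂ M'] (F : M →ₗ[ℂ] M') (G : M' →ₗ[ℂ] M)
    (H1 : Submodule ℂ M) (H2 : Submodule ℂ M') (hF : ∀ x ∈ H1, F x ∈ H2)
    (hpos : ∀ x, G (F x) = 0 → F x = 0)
    (hk : Module.finrank ℂ (LinearMap.ker F ⊓ H1 : Submodule ℂ M) ≤
      Module.finrank ℂ (LinearMap.ker G ⊓ H2 : Submodule ℂ M')) :
    Module.finrank ℂ H1 ≤ Module.finrank ℂ H2 := by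
  let _ := Module.addCommMonoidToAddCommGroup ℂ (M := M)
  let _ := Module.addCommMonoidToAddCommGroup ℂ (M := M')
  exact finrank_le_of_ker F G H1 H2 hF hpos hk

/-- The Foulkes-Howe map on `Pleth`. -/
noncomputable def FH (a b n : ℕ) : Pleth a b n →ₗ[ℂ] Pleth b a n := foulkesHowe a b (Fin n → ℂ)

lemma KH_eq (b a n : ℕ) (lam : Fin n → ℕ) :
    KH b a n lam = LinearMap.ker (FH b a n) ⊓ hwSpace lam (plethAct b a n) := rfl

/-- **From kernels to multiplicities.** -/
theorem foulkes_of_ker {a b n : ℕ} {lam : Fin n → ℕ}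
    (h : Module.finrank ℂ (KH a b n lam) ≤ Module.finrank ℂ (KH b a n lam)) :
    plethMult a b n lam ≤ plethMult b a n lam := by
  rw [KH_eq, KH_eq] at h
  refine finrank_le_of_ker' (FH a b n) (FH b a n)
    (hwSpace lam (plethAct a b n)) (hwSpace lam (plethAct b a n)) ?_ ?_ h
  · intro x hx g hg
    have h1 := LinearMap.congr_fun (foulkesHowe_equivariant a b (Matrix.toLin' g)) x
    have h2 : plethAct b a n g (FH a b n x) = FH a b n (plethAct a b n g x) := h1.symm
    rw [h2, hx g hg]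
    exact map_smul _ _ _
  · intro x hx
    exact Z.H188.pos a b x hx

end Vale.Agent.P181.H530.Alg
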