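import Vale.Agent.P181.H530.PieH2
import Vale.Agent.P181.Z.H914.Cov

set_option autoImplicit false

/-!
# P181, [Z]: the Pieri hypothesis holds
-/

namespace Vale.Agent.P181.H530.KHI

open MvPolynomial Vale.Agent.P181 Vale.Agent.P181.H280 Vale.Agent.P181.H530.Torus
  Vale.Agent.P181.Z.H592 Vale.Agent.P181.Z463 Vale.Agent.P181.Z.H503S Vale.Agent.P181.Z.H582

/-- The covariants of helper914 in the form of `CovStmt`. -/
theorem covStmt (n d : ℕ) (hd1 : 1 ≤ d) (hd : d < n) (a : ℕ) (ha : 3 ≤ a) :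
    CovStmt n d hd (Z.H914.BC (d - 1)) (6 * (d - 1) + 2) a := by
  obtain ⟨k, rfl⟩ : ∃ k, d = k + 1 := ⟨d - 1, by omega⟩
  obtain ⟨m, rfl⟩ : ∃ m, n = m + 1 := ⟨n - 1, by omega⟩
  have hk : k + 1 ≤ m := by omega
  obtain ⟨l, hl, hdet⟩ := Z.H914.cov m k a hk ha
  refine ⟨Z.H914.nuC m k a, l, hl, ?_, ?_, ?_, ?_⟩
  · intro h
    rw [Z.H914.nuC, if_neg (by simp), if_pos rfl]
    rfl
  · intro j h1 h2
    rw [Z.H914.nuC, if_neg (by omega), if_neg (by omega), if_pos (by omega)]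
    rfl
  · intro j h1
    exact Z.H914.nuC_out h1
  · have h1 : (Matrix.of fun r j : Fin (k + 1) => cov hd (l r) j) =
        (Matrix.of fun r j : Fin (k + 1) =>
          if j = 0 then l r else E (Z.H914.emb hk j) (Z.H914.emb hk 0) (l r)) := by
      ext1 r j
      rw [Matrix.of_apply, Matrix.of_apply, cov]
      by_cases h : j = 0
      · rw [if_pos h, if_pos (by rw [h]; rfl)]
      · have h' : ¬ (j : ℕ) = 0 := fun h2 => h (Fin.ext h2)
        rw [if_neg h, if_neg h']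
        rfl
    rw [h1]
    exact hdet

/-- **The Pieri hypothesis.** -/
theorem pieH (n : ℕ) : ∃ (B c : ℕ → ℕ) (a1 : ℕ), ∀ a, a1 ≤ a →
    PieH n a B c ∧ ∀ j < n + 2, (j + 1) * c j + 1 ≤ a * B j :=
  exists_pieH (fun n d hd1 hd => ⟨_, _, 3, fun a ha => covStmt n d hd1 hd a ha⟩) n

end Vale.Agent.P181.H530.KHI
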