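import Vale.Agent.P181.H530.Inj4
import Vale.Agent.P181.H421.Defs
import Vale.Agent.P181.T7.Last
import Vale.Agent.P181.H530.Pad
import Vale.Agent.P181.H530.Zero

set_option autoImplicit false
set_option linter.unusedSectionVars false

/-!
# Foulkes' conjecture in its literal form from the multiplicities
-/

open scoped TensorProduct

universe u v

namespace Vale.Agent.P181.H530

open Vale.Agent.P181 Vale.Agent.P181.H280 Vale.Agent.P181.H421

section

variable {V : Type u} [AddCommGroup V] [Module ℂ V] {W : Type v} [AddCommGroup W] [Module ℂ W]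

/-- Functoriality of the symmetric power across universes. -/
noncomputable def sm {M : Type u} [AddCommGroup M] [Module ℂ M] {N : Type v} [AddCommGroup N]
    [Module ℂ N] (n : ℕ) (g : M →ₗ[ℂ] N) : Sym[ℂ]^n M →ₗ[ℂ] Sym[ℂ]^n N :=
  symLift ((SymmetricPower.tprod ℂ).compLinearMap (fun _ => g)) (fun e v => by
    simp only [MultilinearMap.compLinearMap_apply]
    exact SymmetricPower.tprod_equiv e (fun i => g (v i)))

lemma sm_tprod {M : Type u} [AddCommGroup M] [Module ℂ M] {N : Type v} [AddCommGroup N]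
    [Module ℂ N] (n : ℕ) (g : M →ₗ[ℂ] N) (v : Fin n → M) :
    sm n g (SymmetricPower.tprod ℂ v) = SymmetricPower.tprod ℂ (fun i => g (v i)) :=
  symLift_tprod _ _ v

/-- The map `Sym^a(Sym^b V) → Sym^a(Sym^b W)` of a linear map. -/
noncomputable def sm2 (a b : ℕ) (g : V →ₗ[ℂ] W) :
    Sym[ℂ]^a (Sym[ℂ]^b V) →ₗ[ℂ] Sym[ℂ]^a (Sym[ℂ]^b W) := sm a (sm b g)

lemma sm2_pure (a b : ℕ) (g : V →ₗ[ℂ] W) (v : Fin a → Fin b → V) :
    sm2 a b g (SymmetricPower.tprod ℂ (fun i => SymmetricPower.tprod ℂ (v i))) =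
      SymmetricPower.tprod ℂ (fun i => SymmetricPower.tprod ℂ (fun j => g (v i j))) := by
  rw [sm2, sm_tprod]
  simp only [sm_tprod]

lemma sm2_left_inv (a b : ℕ) (e : V ≃ₗ[ℂ] W) (x : Sym[ℂ]^a (Sym[ℂ]^b V)) :
    sm2 a b e.symm.toLinearMap (sm2 a b e.toLinearMap x) = x := by
  have h : sm2 a b e.symm.toLinearMap ∘ₗ sm2 a b e.toLinearMap = LinearMap.id := by
    apply pure_hom_ext
    intro v
    rw [LinearMap.comp_apply, sm2_pure, sm2_pure, LinearMap.id_apply]
    simp only [LinearEquiv.coe_coe, LinearEquiv.symm_apply_apply]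
  exact LinearMap.congr_fun h x

/-- Conjugating a linear map of `V` to `ℂ^n`. -/
lemma sm2_symMap (a b n : ℕ) (e : V ≃ₗ[ℂ] (Fin n → ℂ)) (g : V →ₗ[ℂ] V)
    (x : Sym[ℂ]^a (Sym[ℂ]^b V)) :
    sm2 a b e.toLinearMap (symMap a (symMap b g) x) =
      plethAct a b n (LinearMap.toMatrix' (e.toLinearMap ∘ₗ g ∘ₗ e.symm.toLinearMap))
        (sm2 a b e.toLinearMap x) := by
  rw [plethAct, Matrix.toLin'_toMatrix']
  have h : sm2 a b e.toLinearMap ∘ₗ symMap a (symMap b g) =
      symMap a (symMap b (e.toLinearMap ∘ₗ g ∘ₗ e.symm.toLinearMap)) ∘ₗ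
        sm2 a b e.toLinearMap := by
    apply LinearMap.ext_on (span_pure a b)
    rintro _ ⟨v, rfl⟩
    dsimp only
    rw [LinearMap.comp_apply, LinearMap.comp_apply, symMap_tprod, sm2_pure, symMap_tprod]
    simp only [symMap_tprod]
    rw [sm2_pure]
    simp only [LinearMap.comp_apply, LinearEquiv.coe_coe, LinearEquiv.symm_apply_apply]
  exact LinearMap.congr_fun h x

end

/-- **Foulkes' conjecture for the pair `(a, b)`**: for every finite-dimensional complex vector
space `V` there is an injective linear map `Sym^a(Sym^b V) → Sym^b(Sym^a V)` which commutes with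
all linear endomorphisms of `V` (in particular it is `GL(V)`-equivariant). -/
def FoulkesInjection (a b : ℕ) : Prop :=
  ∀ (V : Type u) [AddCommGroup V] [Module ℂ V] [FiniteDimensional ℂ V],
    ∃ Ψ : PP a b V →ₗ[ℂ] PP b a V, Commutes Ψ ∧ Function.Injective Ψ

/-- The literal form of Foulkes' conjecture from all the multiplicity inequalities. -/
theorem foulkesInjection_of_mult {a b : ℕ}
    (h : ∀ (n : ℕ) (lam : Fin n → ℕ), plethMult a b n lam ≤ plethMult b a n lam) :
    FoulkesInjection.{u} a b := by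
  intro V _ _ _
  let n := Module.finrank ℂ V
  let e : V ≃ₗ[ℂ] (Fin n → ℂ) := (Module.finBasis ℂ V).equivFun
  obtain ⟨Ψ, h1, h2⟩ := exists_injective a b n (h n)
  let Ψ' : Sym[ℂ]^a (Sym[ℂ]^b (Fin n → ℂ)) →ₗ[ℂ] Sym[ℂ]^b (Sym[ℂ]^a (Fin n → ℂ)) := Ψ
  have h1' : ∀ g x, Ψ' (plethAct a b n g x) = plethAct b a n g (Ψ' x) := h1
  refine ⟨sm2 b a e.symm.toLinearMap ∘ₗ Ψ' ∘ₗ sm2 a b e.toLinearMap, ?_, ?_⟩
  · intro g
    apply LinearMap.ext
    intro x
    have hinj : Function.Injective (sm2 b a e.toLinearMap) :=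
      Function.LeftInverse.injective (sm2_left_inv b a e)
    have hri : ∀ y, sm2 b a e.toLinearMap (sm2 b a e.symm.toLinearMap y) = y := fun y =>
      sm2_left_inv b a e.symm y
    apply hinj
    rw [LinearMap.comp_apply, LinearMap.comp_apply, LinearMap.comp_apply, hri, sm2_symMap,
      LinearMap.comp_apply, sm2_symMap, LinearMap.comp_apply, LinearMap.comp_apply, hri]
    exact h1' _ _
  · have h3 : Function.Injective (sm2 b a e.symm.toLinearMap) :=
      Function.LeftInverse.injective (sm2_left_inv b a e.symm)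
    have h4 : Function.Injective (sm2 a b e.toLinearMap) :=
      Function.LeftInverse.injective (sm2_left_inv a b e)
    have h2' : Function.Injective Ψ' := h2
    exact h3.comp (h2'.comp h4)

/-- The same from the multiplicity inequalities for partitions with at most `a` rows. -/
theorem foulkesInjection {a b : ℕ}
    (h : ∀ lam : Fin a → ℕ, Antitone lam → ∑ i, lam i = a * b →
      plethMult a b a lam ≤ plethMult b a a lam) : FoulkesInjection.{u} a b :=
  foulkesInjection_of_mult (T7.all_n pad_stmt zero_stmt h)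

/-- Conversely, an injective map gives the inequalities. -/
theorem mult_of_foulkesInjection {a b : ℕ} (h : FoulkesInjection.{0} a b) (n : ℕ)
    (lam : Fin n → ℕ) : plethMult a b n lam ≤ plethMult b a n lam := by
  obtain ⟨Ψ, h1, h2⟩ := h (Fin n → ℂ)
  let Ψ' : Pleth a b n →ₗ[ℂ] Pleth b a n := Ψ
  have h3 : ∀ x ∈ hwSpace lam (plethAct a b n), Ψ' x ∈ hwSpace lam (plethAct b a n) := by
    intro x hx g hg
    have h4 : Ψ' (plethAct a b n g x) = plethAct b a n g (Ψ' x) :=
      LinearMap.congr_fun (h1 (Matrix.toLin' g)) x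
    rw [← h4, hx g hg, map_smul]
  have hfin : Module.Finite ℂ (Pleth b a n) :=
    inferInstanceAs (Module.Finite ℂ (Sym[ℂ]^b (Sym[ℂ]^a (Fin n → ℂ))))
  exact finrank_le_of_inj Ψ' _ _ h3 (fun x _ hx0 => by
    apply h2
    exact hx0.trans (map_zero Ψ').symm)

end Vale.Agent.P181.H530
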