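import Vale.Agent.P181.H583.Poly

set_option autoImplicit false
set_option linter.unusedSectionVars false

/-!
# The Fischer form on polynomials

`B(f, h) = ∑_m m! f_m h_m`, with `B(X_p f, h) = B(f, ∂_p h)`, and the contravariance
`B(g f, h) = B(f, gᵀ h)`.
-/

open MvPolynomial

namespace Vale.Agent.P181.H530

open Vale.Agent.P181 Vale.Agent.P181.H280 Vale.Agent.P181.T4

section

variable {τ : Type} [Fintype τ] [DecidableEq τ]

/-- `m! = ∏_p (m_p)!`. -/
noncomputable def fact (m : τ →₀ ℕ) : ℂ := ∏ p, ((m p).factorial : ℂ)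

lemma fact_add_single (m : τ →₀ ℕ) (p : τ) :
    fact (m + Finsupp.single p 1) = ((m p : ℂ) + 1) * fact m := by
  unfold fact
  rw [← Finset.mul_prod_erase Finset.univ _ (Finset.mem_univ p),
    ← Finset.mul_prod_erase Finset.univ (fun q => ((m q).factorial : ℂ)) (Finset.mem_univ p)]
  have h1 : ∏ x ∈ Finset.univ.erase p, (((m + Finsupp.single p 1 : τ →₀ ℕ) x).factorial : ℂ) =
      ∏ x ∈ Finset.univ.erase p, ((m x).factorial : ℂ) := by
    refine Finset.prod_congr rfl fun q hq => ?_
    have : q ≠ p := Finset.ne_of_mem_erase hq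
    rw [Finsupp.add_apply, Finsupp.single_eq_of_ne this, add_zero]
  rw [h1, Finsupp.add_apply, Finsupp.single_eq_same, Nat.factorial_succ]
  push_cast
  ring

/-- The bilinear Fischer form. -/
noncomputable def fis : MvPolynomial τ ℂ →ₗ[ℂ] MvPolynomial τ ℂ →ₗ[ℂ] ℂ :=
  (basisMonomials τ ℂ).constr ℂ (fun m => fact m • lcoeff ℂ m)

lemma fis_monomial (m : τ →₀ ℕ) (c : ℂ) (h : MvPolynomial τ ℂ) :
    fis (monomial m c) h = c * fact m * coeff m h := by
  have h1 : (monomial m c : MvPolynomial τ ℂ) = c • (basisMonomials τ ℂ m) := by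
    rw [coe_basisMonomials, smul_monomial, smul_eq_mul, mul_one]
  rw [h1, map_smul, fis, Module.Basis.constr_basis]
  simp only [LinearMap.smul_apply, lcoeff_apply, smul_eq_mul]
  ring

lemma fis_X_mul (p : τ) (f h : MvPolynomial τ ℂ) : fis (X p * f) h = fis f (pderiv p h) := by
  induction f using MvPolynomial.induction_on' with
  | monomial m c =>
    have h1 : (X p * monomial m c : MvPolynomial τ ℂ) = monomial (m + Finsupp.single p 1) c := by
      rw [X, monomial_mul, one_mul, add_comm]
    rw [h1, fis_monomial, fis_monomial, fact_add_single]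
    induction h using MvPolynomial.induction_on' with
    | monomial k d =>
      rw [pderiv_monomial, coeff_monomial, coeff_monomial]
      by_cases hk : k = m + Finsupp.single p 1
      · have hk' : k - Finsupp.single p 1 = m := by rw [hk, add_tsub_cancel_right]
        rw [if_pos hk, if_pos hk', hk, Finsupp.add_apply, Finsupp.single_eq_same]
        push_cast
        ring
      · rw [if_neg hk, mul_zero]
        by_cases hk' : k - Finsupp.single p 1 = m
        · rw [if_pos hk']
          have h0 : k p = 0 := by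
            by_contra hne
            apply hk
            rw [← hk']
            ext q
            rw [Finsupp.add_apply, Finsupp.tsub_apply]
            by_cases hq : q = p
            · rw [hq, Finsupp.single_eq_same]
              omega
            · rw [Finsupp.single_eq_of_ne hq]
              omega
          rw [h0]
          push_cast
          ring
        · rw [if_neg hk', mul_zero]
    | add h1 h2 ih1 ih2 => rw [coeff_add, mul_add, ih1, ih2, map_add, coeff_add, mul_add]
  | add f1 f2 ih1 ih2 =>
    rw [mul_add, map_add, LinearMap.add_apply, ih1, ih2, map_add, LinearMap.add_apply]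

lemma fis_C (c : ℂ) (h : MvPolynomial τ ℂ) : fis (C c) h = c * constantCoeff h := by
  rw [C_apply, fis_monomial, constantCoeff_eq]
  congr 1
  unfold fact
  simp

/-- Complex conjugation of the coefficients. -/
noncomputable def cj : MvPolynomial τ ℂ →+* MvPolynomial τ ℂ := MvPolynomial.map (starRingEnd ℂ)

lemma coeff_cj (m : τ →₀ ℕ) (f : MvPolynomial τ ℂ) :
    coeff m (cj f) = (starRingEnd ℂ) (coeff m f) := coeff_map _ _ _

lemma cj_cj (f : MvPolynomial τ ℂ) : cj (cj f) = f := by
  ext m
  rw [coeff_cj, coeff_cj, Complex.conj_conj]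

lemma cj_smul (c : ℂ) (f : MvPolynomial τ ℂ) : cj (c • f) = (starRingEnd ℂ) c • cj f := by
  ext m
  rw [coeff_cj, coeff_smul, coeff_smul, coeff_cj, smul_eq_mul, smul_eq_mul, map_mul]

lemma fis_eq (f h : MvPolynomial τ ℂ) :
    fis f h = ∑ m ∈ f.support, coeff m f * fact m * coeff m h := by
  conv_lhs => rw [f.as_sum]
  rw [map_sum, LinearMap.sum_apply]
  exact Finset.sum_congr rfl fun m _ => fis_monomial _ _ _

lemma fis_eq_right (f h : MvPolynomial τ ℂ) :
    fis f h = ∑ m ∈ h.support, coeff m f * fact m * coeff m h := by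
  conv_lhs => rw [h.as_sum]
  rw [map_sum]
  refine Finset.sum_congr rfl fun m _ => ?_
  rw [fis_eq]
  by_cases hm : m ∈ f.support
  · rw [Finset.sum_eq_single m]
    · rw [coeff_monomial, if_pos rfl]
    · intro k _ hk
      rw [coeff_monomial, if_neg (Ne.symm hk), mul_zero]
    · intro h; exact absurd hm h
  · rw [notMem_support_iff.1 hm, zero_mul, zero_mul]
    refine Finset.sum_eq_zero fun k hk => ?_
    have : m ≠ k := fun h => hm (h ▸ hk)
    rw [coeff_monomial, if_neg this, mul_zero]

lemma fact_conj (m : τ →₀ ℕ) : (starRingEnd ℂ) (fact m) = fact m := by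
  unfold fact
  rw [map_prod]
  exact Finset.prod_congr rfl fun p _ => Complex.conj_natCast _

/-- The Hermitian Fischer form. -/
noncomputable def herm (f h : MvPolynomial τ ℂ) : ℂ := fis (cj f) h

lemma herm_conj (f h : MvPolynomial τ ℂ) : (starRingEnd ℂ) (herm h f) = herm f h := by
  unfold herm
  rw [fis_eq, fis_eq_right, map_sum]
  have h1 : (cj h).support = h.support := by
    ext m
    rw [mem_support_iff, mem_support_iff, coeff_cj]
    simp
  rw [h1]
  refine Finset.sum_congr rfl fun m _ => ?_
  rw [map_mul, map_mul, coeff_cj, coeff_cj, Complex.conj_conj, fact_conj]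
  ring

lemma herm_self (f : MvPolynomial τ ℂ) :
    herm f f = ((∑ m ∈ f.support, (∏ p, ((m p).factorial : ℝ)) * ‖coeff m f‖ ^ 2 : ℝ) : ℂ) := by
  unfold herm
  rw [fis_eq_right, Complex.ofReal_sum]
  refine Finset.sum_congr rfl fun m _ => ?_
  have h1 : ((‖coeff m f‖ ^ 2 : ℝ) : ℂ) = (starRingEnd ℂ) (coeff m f) * coeff m f := by
    rw [Complex.conj_mul']
    push_cast
    rfl
  rw [coeff_cj, fact, Complex.ofReal_mul, Complex.ofReal_prod, h1]
  push_cast
  ring

lemma herm_self_nonneg (f : MvPolynomial τ ℂ) : 0 ≤ (herm f f).re := by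
  rw [herm_self, Complex.ofReal_re]
  exact Finset.sum_nonneg fun m _ => by positivity

lemma herm_definite (f : MvPolynomial τ ℂ) (h : herm f f = 0) : f = 0 := by
  rw [herm_self, Complex.ofReal_eq_zero] at h
  rw [Finset.sum_eq_zero_iff_of_nonneg (fun m _ => by positivity)] at h
  ext m
  rw [coeff_zero]
  by_contra hne
  have h1 := h m (mem_support_iff.2 hne)
  have h2 : (0 : ℝ) < (∏ p, ((m p).factorial : ℝ)) * ‖coeff m f‖ ^ 2 := by
    refine mul_pos (Finset.prod_pos fun p _ => ?_) (by positivity)
    exact_mod_cast Nat.factorial_pos _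
  linarith

lemma herm_add_left (f f' h : MvPolynomial τ ℂ) : herm (f + f') h = herm f h + herm f' h := by
  unfold herm
  rw [map_add, map_add, LinearMap.add_apply]

lemma herm_smul_left (c : ℂ) (f h : MvPolynomial τ ℂ) :
    herm (c • f) h = (starRingEnd ℂ) c * herm f h := by
  unfold herm
  rw [cj_smul, map_smul, LinearMap.smul_apply, smul_eq_mul]

end

section

variable {n : ℕ} {σ : Type} [Fintype σ] [DecidableEq σ]

lemma polyAct_C (g : Matrix (Fin n) (Fin n) ℂ) (c : ℂ) :
    polyAct n σ g (C c) = C c := by
  rw [polyAct, AlgHom.toLinearMap_apply]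
  exact algHom_C _ c

/-- The chain rule. -/
lemma pderiv_polyAct (g : Matrix (Fin n) (Fin n) ℂ) (p : Fin n × σ)
    (h : MvPolynomial (Fin n × σ) ℂ) :
    pderiv p (polyAct n σ g h) = ∑ i, g p.1 i • polyAct n σ g (pderiv (i, p.2) h) := by
  induction h using MvPolynomial.induction_on with
  | C c =>
    rw [polyAct_C, pderiv_C]
    refine (Finset.sum_eq_zero fun i _ => ?_).symm
    rw [pderiv_C, map_zero, smul_zero]
  | add h1 h2 ih1 ih2 =>
    rw [map_add, map_add, ih1, ih2, ← Finset.sum_add_distrib]
    exact Finset.sum_congr rfl fun i _ => by rw [map_add, map_add, smul_add]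
  | mul_X h q ih =>
    rw [polyAct_mul, pderiv_mul, ih]
    have h1 : pderiv p (polyAct n σ g (X q)) = ∑ i, g p.1 i •
        polyAct n σ g (pderiv (i, p.2) (X q)) := by
      rw [polyAct_X, map_sum]
      have e1 : ∀ k, pderiv p (g k q.1 • (X (k, q.2) : MvPolynomial (Fin n × σ) ℂ)) =
          if k = p.1 then (if q.2 = p.2 then C (g k q.1) else 0) else 0 := by
        intro k
        rw [Derivation.map_smul, pderiv_X]
        by_cases h2 : k = p.1
        · by_cases h3 : q.2 = p.2
          · have h4 : (k, q.2) = p := Prod.ext h2 h3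
            rw [if_pos h2, if_pos h3, h4, Pi.single_eq_same, smul_eq_C_mul, mul_one]
          · have h4 : (k, q.2) ≠ p := fun h => h3 (by rw [← h])
            rw [if_pos h2, if_neg h3, Pi.single_eq_of_ne h4, smul_zero]
        · have h4 : (k, q.2) ≠ p := fun h => h2 (by rw [← h])
          rw [if_neg h2, Pi.single_eq_of_ne h4, smul_zero]
      rw [Finset.sum_congr rfl (fun k _ => e1 k), Finset.sum_ite_eq' Finset.univ p.1,
        if_pos (Finset.mem_univ _)]
      have e2 : ∀ i, g p.1 i • polyAct n σ g (pderiv (i, p.2) (X q)) =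
          if i = q.1 then (if q.2 = p.2 then C (g p.1 i) else 0) else 0 := by
        intro i
        rw [pderiv_X]
        by_cases h2 : i = q.1
        · by_cases h3 : q.2 = p.2
          · have h4 : q = (i, p.2) := Prod.ext h2.symm h3
            rw [if_pos h2, if_pos h3, ← h4, Pi.single_eq_same]
            rw [show (1 : MvPolynomial (Fin n × σ) ℂ) = C 1 from C_1.symm, polyAct_C,
              smul_eq_C_mul, C_1, mul_one]
          · have h4 : (i, p.2) ≠ q := fun h => h3 (by rw [← h])
            rw [if_pos h2, if_neg h3, Pi.single_eq_of_ne h4.symm, map_zero, smul_zero]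
        · have h4 : (i, p.2) ≠ q := fun h => h2 (by rw [← h])
          rw [if_neg h2, Pi.single_eq_of_ne h4.symm, map_zero, smul_zero]
      rw [Finset.sum_congr rfl (fun i _ => e2 i), Finset.sum_ite_eq' Finset.univ q.1,
        if_pos (Finset.mem_univ _)]
    rw [h1, Finset.sum_mul, Finset.mul_sum, ← Finset.sum_add_distrib]
    refine Finset.sum_congr rfl fun i _ => ?_
    rw [pderiv_mul, map_add, polyAct_mul, polyAct_mul, smul_add, smul_mul_assoc, mul_smul_comm]

lemma constantCoeff_polyAct (g : Matrix (Fin n) (Fin n) ℂ) (h : MvPolynomial (Fin n × σ) ℂ) :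
    constantCoeff (polyAct n σ g h) = constantCoeff h := by
  induction h using MvPolynomial.induction_on with
  | C c => rw [polyAct_C]
  | add h1 h2 ih1 ih2 => rw [map_add, map_add, map_add, ih1, ih2]
  | mul_X h q _ =>
    rw [polyAct_mul, map_mul, map_mul, polyAct_X, map_sum]
    have : ∀ k, constantCoeff (g k q.1 • (X (k, q.2) : MvPolynomial (Fin n × σ) ℂ)) = 0 := by
      intro k
      rw [smul_eq_C_mul, map_mul, constantCoeff_X, mul_zero]
    rw [Finset.sum_congr rfl (fun k _ => this k), Finset.sum_const_zero, constantCoeff_X,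
      mul_zero, mul_zero]

/-- The Fischer form is contravariant. -/
lemma fis_polyAct (g : Matrix (Fin n) (Fin n) ℂ) (f : MvPolynomial (Fin n × σ) ℂ) :
    ∀ h : MvPolynomial (Fin n × σ) ℂ,
    fis (polyAct n σ g f) h = fis f (polyAct n σ g.transpose h) := by
  induction f using MvPolynomial.induction_on with
  | C c =>
    intro h
    rw [polyAct_C, fis_C, fis_C, constantCoeff_polyAct]
  | add f1 f2 ih1 ih2 =>
    intro h
    rw [map_add, map_add, LinearMap.add_apply, map_add, LinearMap.add_apply, ih1, ih2]
  | mul_X f p ih =>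
    intro h
    rw [polyAct_mul, polyAct_X, mul_comm f (X p), fis_X_mul, pderiv_polyAct, map_sum,
      Finset.mul_sum, map_sum, LinearMap.sum_apply]
    refine Finset.sum_congr rfl fun k _ => ?_
    rw [mul_smul_comm, map_smul, map_smul, LinearMap.smul_apply, mul_comm (polyAct n σ g f),
      fis_X_mul, ih, Matrix.transpose_apply]

lemma cj_polyAct (g : Matrix (Fin n) (Fin n) ℂ) (f : MvPolynomial (Fin n × σ) ℂ) :
    cj (polyAct n σ g f) = polyAct n σ (g.map (starRingEnd ℂ)) (cj f) := by
  induction f using MvPolynomial.induction_on with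
  | C c => rw [polyAct_C, cj, map_C, polyAct_C]
  | add f1 f2 ih1 ih2 => rw [map_add, map_add, map_add, map_add, ih1, ih2]
  | mul_X f p ih =>
    rw [polyAct_mul, map_mul, ih, map_mul, polyAct_mul]
    congr 1
    rw [polyAct_X, map_sum]
    have : cj (X p : MvPolynomial (Fin n × σ) ℂ) = X p := by rw [cj, map_X]
    rw [this, polyAct_X]
    refine Finset.sum_congr rfl fun k _ => ?_
    rw [cj_smul, cj, map_X, Matrix.map_apply]

/-- The Hermitian form is contravariant. -/
lemma herm_polyAct (g : Matrix (Fin n) (Fin n) ℂ) (f h : MvPolynomial (Fin n × σ) ℂ) :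
    herm (polyAct n σ g f) h = herm f (polyAct n σ g.conjTranspose h) := by
  unfold herm
  rw [cj_polyAct, fis_polyAct]
  rfl

/-- The coefficients of `g f` are continuous in `g`. -/
lemma continuous_coeff_polyAct (f : MvPolynomial (Fin n × σ) ℂ) :
    ∀ m, Continuous (fun g : Matrix (Fin n) (Fin n) ℂ => coeff m (polyAct n σ g f)) := by
  induction f using MvPolynomial.induction_on with
  | C c =>
    intro m
    simp only [polyAct_C]
    exact continuous_const
  | add f1 f2 ih1 ih2 =>
    intro m
    simp only [map_add, coeff_add]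
    exact (ih1 m).add (ih2 m)
  | mul_X f p ih =>
    intro m
    simp only [polyAct_mul, coeff_mul]
    refine continuous_finsetSum _ fun x _ => (ih x.1).mul ?_
    simp only [polyAct_X, coeff_sum, coeff_smul, smul_eq_mul]
    refine continuous_finsetSum _ fun k _ => ?_
    exact (continuous_id.matrix_elem k p.1).mul continuous_const

lemma continuous_herm (f h : MvPolynomial (Fin n × σ) ℂ) :
    Continuous (fun g : Matrix (Fin n) (Fin n) ℂ => herm h (polyAct n σ g f)) := by
  simp only [herm, fis_eq]
  exact continuous_finsetSum _ fun m _ => continuous_const.mul (continuous_coeff_polyAct f m)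

end

end Vale.Agent.P181.H530
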