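import Vale.Agent.P181.H530.Inj1
import Mathlib.Algebra.MvPolynomial.Funext

set_option autoImplicit false
set_option linter.unusedSectionVars false

/-!
# Highest weight vectors in invariant subspaces
-/

open MvPolynomial

namespace Vale.Agent.P181.H530

open Vale.Agent.P181 Vale.Agent.P181.H280 Vale.Agent.P181.T4

section

variable {n : ℕ} {σ : Type} [Fintype σ] [DecidableEq σ]

lemma polyAct_mul_mat (g h : Matrix (Fin n) (Fin n) ℂ) (f : MvPolynomial (Fin n × σ) ℂ) :
    polyAct n σ (g * h) f = polyAct n σ g (polyAct n σ h f) := by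
  induction f using MvPolynomial.induction_on with
  | C c => rw [polyAct_C, polyAct_C, polyAct_C]
  | add f1 f2 ih1 ih2 => rw [map_add, map_add, map_add, ih1, ih2]
  | mul_X f p ih =>
    rw [polyAct_mul, polyAct_mul, polyAct_mul, ih]
    congr 1
    rw [polyAct_X, polyAct_X, map_sum]
    simp only [map_smul, polyAct_X, Matrix.mul_apply, Finset.sum_smul, Finset.smul_sum, smul_smul]
    rw [Finset.sum_comm]
    refine Finset.sum_congr rfl fun k _ => Finset.sum_congr rfl fun l _ => ?_
    rw [mul_comm]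

lemma polyAct_one (f : MvPolynomial (Fin n × σ) ℂ) : polyAct n σ 1 f = f := by
  induction f using MvPolynomial.induction_on with
  | C c => rw [polyAct_C]
  | add f1 f2 ih1 ih2 => rw [map_add, ih1, ih2]
  | mul_X f p ih =>
    rw [polyAct_mul, ih, polyAct_X]
    congr 1
    rw [Finset.sum_eq_single p.1]
    · rw [Matrix.one_apply_eq, one_smul]
    · intro k _ hk
      rw [Matrix.one_apply_ne hk, zero_smul]
    · intro h; exact absurd (Finset.mem_univ _) h

/-- The degree of a monomial in the variables of row `i`. -/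
def rdeg (m : Fin n × σ →₀ ℕ) (i : Fin n) : ℕ := ∑ j, m (i, j)

lemma coeff_diag (d : Fin n → ℂ) (f : MvPolynomial (Fin n × σ) ℂ) (m : Fin n × σ →₀ ℕ) :
    coeff m (polyAct n σ (Matrix.diagonal d) f) = (∏ i, d i ^ rdeg m i) * coeff m f := by
  have hX : ∀ p : Fin n × σ, polyAct n σ (Matrix.diagonal d) (X p) = C (d p.1) * X p := by
    intro p
    rw [polyAct_X, Finset.sum_eq_single p.1]
    · rw [Matrix.diagonal_apply_eq, smul_eq_C_mul]
    · intro k _ hk
      rw [Matrix.diagonal_apply_ne _ hk, zero_smul]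
    · intro h; exact absurd (Finset.mem_univ _) h
  have key : ∀ (k : Fin n × σ →₀ ℕ) (c : ℂ), polyAct n σ (Matrix.diagonal d) (monomial k c) =
      C (∏ i, d i ^ rdeg k i) * monomial k c := by
    intro k c
    rw [monomial_eq, polyAct_mul, polyAct_C, Finsupp.prod_fintype _ _ (fun _ => pow_zero _),
      polyAct_prod]
    have h1 : ∀ p : Fin n × σ, polyAct n σ (Matrix.diagonal d) (X p ^ k p) =
        C (d p.1 ^ k p) * X p ^ k p := by
      intro p
      have h2 : polyAct n σ (Matrix.diagonal d) (X p ^ k p) =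
          (polyAct n σ (Matrix.diagonal d) (X p)) ^ k p := by
        simp only [polyAct, AlgHom.toLinearMap_apply, map_pow]
      rw [h2, hX, mul_pow, C_pow]
    rw [Finset.prod_congr rfl (fun p _ => h1 p), Finset.prod_mul_distrib]
    have h3 : (∏ p : Fin n × σ, C (d p.1 ^ k p) : MvPolynomial (Fin n × σ) ℂ) =
        C (∏ i, d i ^ rdeg k i) := by
      rw [map_prod, Fintype.prod_prod_type]
      refine Finset.prod_congr rfl fun i _ => ?_
      rw [rdeg, ← Finset.prod_pow_eq_pow_sum, map_prod]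
    rw [h3]
    ring
  induction f using MvPolynomial.induction_on' with
  | monomial k c =>
    rw [key, coeff_C_mul, coeff_monomial]
    by_cases h : k = m
    · rw [if_pos h, h]
    · rw [if_neg h, mul_zero, mul_zero]
  | add f1 f2 ih1 ih2 => rw [map_add, coeff_add, coeff_add, ih1, ih2, mul_add]

/-- The part of weight `lam`. -/
noncomputable def wpart (lam : Fin n → ℕ) (f : MvPolynomial (Fin n × σ) ℂ) :
    MvPolynomial (Fin n × σ) ℂ :=
  ∑ m ∈ f.support with rdeg m = lam, monomial m (coeff m f)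

lemma coeff_wpart (lam : Fin n → ℕ) (f : MvPolynomial (Fin n × σ) ℂ) (m : Fin n × σ →₀ ℕ) :
    coeff m (wpart lam f) = if rdeg m = lam then coeff m f else 0 := by
  unfold wpart
  rw [coeff_sum]
  simp only [coeff_monomial]
  rw [Finset.sum_ite_eq']
  by_cases h1 : rdeg m = lam
  · rw [if_pos h1]
    by_cases h2 : m ∈ f.support
    · rw [if_pos (Finset.mem_filter.2 ⟨h2, h1⟩)]
    · rw [if_neg (fun h => h2 (Finset.mem_filter.1 h).1), notMem_support_iff.1 h2]
  · rw [if_neg h1, if_neg (fun h : m ∈ f.support.filter (fun m => rdeg m = lam) =>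
      h1 (Finset.mem_filter.1 h).2)]

/-- Invariant subspaces contain the weight components of their elements. -/
lemma wpart_mem {W : Submodule ℂ (MvPolynomial (Fin n × σ) ℂ)}
    (hW : ∀ g, ∀ w ∈ W, polyAct n σ g w ∈ W) (lam : Fin n → ℕ)
    {f : MvPolynomial (Fin n × σ) ℂ} (hf : f ∈ W) : wpart lam f ∈ W := by
  by_contra hno
  obtain ⟨φ, hφ1, hφ2⟩ := Submodule.exists_le_ker_of_notMem hno
  apply hφ1
  -- the generating polynomial of the values of `φ`
  let Q : MvPolynomial (Fin n) ℂ :=
    ∑ m ∈ f.support, monomial (Finsupp.equivFunOnFinite.symm (rdeg m)) (φ (monomial m (coeff m f)))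
  have hQ : Q = 0 := by
    apply MvPolynomial.funext
    intro d
    rw [map_zero]
    have h1 : eval d Q = φ (polyAct n σ (Matrix.diagonal d) f) := by
      have h2 : polyAct n σ (Matrix.diagonal d) f =
          ∑ m ∈ f.support, (∏ i, d i ^ rdeg m i) • monomial m (coeff m f) := by
        ext m
        rw [coeff_diag, coeff_sum]
        simp only [coeff_smul, coeff_monomial, smul_eq_mul, mul_ite, mul_zero]
        rw [Finset.sum_ite_eq']
        by_cases h3 : m ∈ f.support
        · rw [if_pos h3]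
        · rw [if_neg h3, notMem_support_iff.1 h3, mul_zero]
      rw [h2, map_sum, map_sum]
      refine Finset.sum_congr rfl fun m _ => ?_
      rw [eval_monomial, map_smul, smul_eq_mul, mul_comm]
      congr 1
      rw [Finsupp.prod_fintype _ _ (fun _ => pow_zero _)]
      rfl
    rw [h1]
    exact hφ2 (hW _ _ hf)
  have h4 : coeff (Finsupp.equivFunOnFinite.symm lam) Q = φ (wpart lam f) := by
    rw [wpart, map_sum, coeff_sum, Finset.sum_filter]
    refine Finset.sum_congr rfl fun m _ => ?_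
    rw [coeff_monomial]
    by_cases h5 : rdeg m = lam
    · rw [if_pos h5, if_pos (by rw [h5])]
    · rw [if_neg h5, if_neg (fun h => h5 (Finsupp.equivFunOnFinite.symm.injective h))]
  rw [← h4, hQ, coeff_zero]

/-- The pairing of a weight with the strictly decreasing cocharacter `n - 1 - i`. -/
def cw (lam : Fin n → ℕ) : ℕ := ∑ i : Fin n, (n - 1 - (i : ℕ)) * lam i

lemma cw_rdeg_le (m : Fin n × σ →₀ ℕ) : cw (rdeg m) ≤ n * ∑ p, m p := by
  unfold cw rdeg
  rw [Fintype.sum_prod_type, Finset.mul_sum]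
  refine Finset.sum_le_sum fun i _ => ?_
  exact Nat.mul_le_mul_right _ (by omega)

/-- Upper unitriangular matrices. -/
def IsUni (u : Matrix (Fin n) (Fin n) ℂ) : Prop := (∀ i j, j < i → u i j = 0) ∧ ∀ i, u i i = 1

/-- `u_s = δ(s) u δ(s)⁻¹`. -/
def conjU (u : Matrix (Fin n) (Fin n) ℂ) (s : ℂ) : Matrix (Fin n) (Fin n) ℂ :=
  Matrix.of fun i j => u i j * s ^ ((j : ℕ) - (i : ℕ))

lemma conjU_mul {u : Matrix (Fin n) (Fin n) ℂ} (hu : IsUni u) (s : ℂ) :
    conjU u s * Matrix.diagonal (fun i : Fin n => s ^ (n - 1 - (i : ℕ))) =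
      Matrix.diagonal (fun i : Fin n => s ^ (n - 1 - (i : ℕ))) * u := by
  ext i j
  rw [Matrix.mul_diagonal, Matrix.diagonal_mul, conjU, Matrix.of_apply]
  rcases lt_or_ge j i with h | h
  · rw [hu.1 i j h]; ring
  · rw [mul_assoc, ← pow_add, mul_comm]
    congr 2
    have h1 : (i : ℕ) ≤ j := h
    have h2 := j.isLt
    omega

lemma conjU_zero {u : Matrix (Fin n) (Fin n) ℂ} (hu : IsUni u) : conjU u 0 = 1 := by
  ext i j
  rw [conjU, Matrix.of_apply]
  rcases lt_trichotomy i j with h | h | h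
  · rw [Matrix.one_apply_ne h.ne, zero_pow (by have : (i : ℕ) < j := h; omega), mul_zero]
  · rw [h, hu.2, Matrix.one_apply_eq, Nat.sub_self, pow_zero, mul_one]
  · rw [Matrix.one_apply_ne h.ne', hu.1 i j h, zero_mul]

lemma continuous_conjU (u : Matrix (Fin n) (Fin n) ℂ) : Continuous (conjU u) := by
  unfold conjU
  refine continuous_matrix fun i j => ?_
  simp only [Matrix.of_apply]
  exact continuous_const.mul (continuous_pow _)

/-- A weight vector of maximal pairing is fixed by the unipotent group. -/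
lemma fixed_of_max {W : Submodule ℂ (MvPolynomial (Fin n × σ) ℂ)}
    (hW : ∀ g, ∀ w ∈ W, polyAct n σ g w ∈ W) {lam : Fin n → ℕ}
    (hmax : ∀ w ∈ W, ∀ m ∈ w.support, cw (rdeg m) ≤ cw lam)
    {w : MvPolynomial (Fin n × σ) ℂ} (hw : w ∈ W) (hwt : ∀ m ∈ w.support, rdeg m = lam)
    {u : Matrix (Fin n) (Fin n) ℂ} (hu : IsUni u) : polyAct n σ u w = w := by
  have hd : ∀ (s : ℂ) (μ : Fin n → ℕ), ∏ i : Fin n, (s ^ (n - 1 - (i : ℕ))) ^ μ i = s ^ cw μ := by
    intro s μ
    rw [cw, ← Finset.prod_pow_eq_pow_sum]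
    exact Finset.prod_congr rfl fun i _ => (pow_mul _ _ _).symm
  have hdw : ∀ s : ℂ, polyAct n σ (Matrix.diagonal (fun i : Fin n => s ^ (n - 1 - (i : ℕ)))) w =
      s ^ cw lam • w := by
    intro s
    ext m
    rw [coeff_diag, hd, coeff_smul, smul_eq_mul]
    by_cases h : m ∈ w.support
    · rw [hwt m h]
    · rw [notMem_support_iff.1 h, mul_zero, mul_zero]
  have key : ∀ (s : ℂ) (m : Fin n × σ →₀ ℕ), s ^ cw lam * coeff m (polyAct n σ (conjU u s) w) =
      s ^ cw (rdeg m) * coeff m (polyAct n σ u w) := by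
    intro s m
    have h1 := congrArg (fun g => coeff m (polyAct n σ g w)) (conjU_mul hu s)
    simp only [polyAct_mul_mat] at h1
    rw [hdw, map_smul, coeff_smul, coeff_diag, hd, smul_eq_mul] at h1
    exact h1
  ext m
  have hcont : Continuous (fun s : ℂ => coeff m (polyAct n σ (conjU u s) w)) :=
    (continuous_coeff_polyAct w m).comp (continuous_conjU u)
  by_cases hm : m ∈ (polyAct n σ u w).support
  · have hle : cw (rdeg m) ≤ cw lam := hmax _ (hW _ _ hw) m hm
    obtain ⟨k, hk⟩ := Nat.exists_eq_add_of_le hle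
    -- for `s ≠ 0` divide
    have h2 : ∀ s ∈ ({0}ᶜ : Set ℂ), s ^ k * coeff m (polyAct n σ (conjU u s) w) =
        coeff m (polyAct n σ u w) := by
      intro s hs
      have hs0 : s ≠ 0 := hs
      have h3 := key s m
      rw [hk, pow_add, mul_assoc] at h3
      exact mul_left_cancel₀ (pow_ne_zero _ hs0) h3
    have h4 : (fun s : ℂ => s ^ k * coeff m (polyAct n σ (conjU u s) w)) =
        fun _ => coeff m (polyAct n σ u w) :=
      Continuous.ext_on (dense_compl_singleton 0) ((continuous_pow k).mul hcont)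
        continuous_const h2
    have h5 := congrFun h4 0
    simp only [conjU_zero hu, polyAct_one] at h5
    rcases Nat.eq_zero_or_pos k with hk0 | hk0
    · rw [hk0, pow_zero, one_mul] at h5
      exact h5.symm
    · exfalso
      rw [zero_pow hk0.ne', zero_mul] at h5
      exact (mem_support_iff.1 hm) h5.symm
  · rw [notMem_support_iff.1 hm]
    by_contra hne
    have hms : m ∈ w.support := mem_support_iff.2 (fun h => hne h.symm)
    have h6 : ∀ s ∈ ({0}ᶜ : Set ℂ), coeff m (polyAct n σ (conjU u s) w) = 0 := by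
      intro s hs
      have hs0 : s ≠ 0 := hs
      have h3 := key s m
      rw [notMem_support_iff.1 hm, mul_zero] at h3
      exact (mul_eq_zero.1 h3).resolve_left (pow_ne_zero _ hs0)
    have h7 : (fun s : ℂ => coeff m (polyAct n σ (conjU u s) w)) = fun _ => 0 :=
      Continuous.ext_on (dense_compl_singleton 0) hcont continuous_const h6
    have h8 := congrFun h7 0
    simp only [conjU_zero hu, polyAct_one] at h8
    exact hne h8.symm

/-- The highest weight condition for polynomials. -/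
def IsHWP (lam : Fin n → ℕ) (w : MvPolynomial (Fin n × σ) ℂ) : Prop :=
  ∀ g, IsBorel g → polyAct n σ g w = (∏ i, g i i ^ lam i) • w

/-- Every nonzero invariant subspace of polynomials of bounded degree contains a nonzero highest
weight vector. -/
theorem exists_hw {W : Submodule ℂ (MvPolynomial (Fin n × σ) ℂ)}
    (hW : ∀ g, ∀ w ∈ W, polyAct n σ g w ∈ W) (d : ℕ)
    (hdeg : ∀ w ∈ W, ∀ m ∈ w.support, ∑ p, m p ≤ d) (hne : W ≠ ⊥) :
    ∃ lam : Fin n → ℕ, ∃ w ∈ W, w ≠ 0 ∧ IsHWP lam w := by
  classical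
  let S : Set ℕ := {k | ∃ w ∈ W, ∃ m ∈ w.support, cw (rdeg m) = k}
  obtain ⟨w0, hw0, hw0ne⟩ := (Submodule.ne_bot_iff W).1 hne
  obtain ⟨m0, hm0⟩ := MvPolynomial.ne_zero_iff.1 hw0ne
  have hSne : S.Nonempty := ⟨_, w0, hw0, m0, mem_support_iff.2 hm0, rfl⟩
  have hSbd : BddAbove S := by
    refine ⟨n * d, ?_⟩
    rintro k ⟨w, hw, m, hm, rfl⟩
    exact (cw_rdeg_le m).trans (Nat.mul_le_mul_left _ (hdeg w hw m hm))
  obtain ⟨w1, hw1, m1, hm1, hk⟩ := Nat.sSup_mem hSne hSbd
  have hmax : ∀ w ∈ W, ∀ m ∈ w.support, cw (rdeg m) ≤ cw (rdeg m1) := by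
    intro w hw m hm
    rw [hk]
    exact le_csSup hSbd ⟨w, hw, m, hm, rfl⟩
  refine ⟨rdeg m1, wpart (rdeg m1) w1, wpart_mem hW _ hw1, ?_, ?_⟩
  · intro h
    have h1 := coeff_wpart (rdeg m1) w1 m1
    rw [h, coeff_zero, if_pos rfl] at h1
    exact (mem_support_iff.1 hm1) h1.symm
  · have hwt : ∀ m ∈ (wpart (rdeg m1) w1).support, rdeg m = rdeg m1 := by
      intro m hm
      by_contra hne'
      have := coeff_wpart (rdeg m1) w1 m
      rw [if_neg hne'] at this
      exact (mem_support_iff.1 hm) this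
    intro g hg
    -- `g = D u`
    let u : Matrix (Fin n) (Fin n) ℂ := Matrix.of fun i j => (g i i)⁻¹ * g i j
    have hu : IsUni u := by
      refine ⟨fun i j hij => ?_, fun i => ?_⟩
      · simp only [u, Matrix.of_apply, hg.1 i j hij, mul_zero]
      · simp only [u, Matrix.of_apply]
        exact inv_mul_cancel₀ (hg.2 i)
    have hgu : g = Matrix.diagonal (fun i => g i i) * u := by
      ext i j
      rw [Matrix.diagonal_mul]
      simp only [u, Matrix.of_apply]
      rw [← mul_assoc, mul_inv_cancel₀ (hg.2 i), one_mul]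
    have h1 := fixed_of_max hW hmax (wpart_mem hW (rdeg m1) hw1) hwt hu
    conv_lhs => rw [hgu]
    rw [polyAct_mul_mat, h1]
    ext m
    rw [coeff_diag, coeff_smul, smul_eq_mul]
    by_cases h : m ∈ (wpart (rdeg m1) w1).support
    · rw [hwt m h]
    · rw [notMem_support_iff.1 h, mul_zero, mul_zero]

end

end Vale.Agent.P181.H530
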