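import Vale.Agent.P181.H530.Inj2
import Mathlib.Topology.Algebra.Module.Cardinality
import Mathlib.Analysis.InnerProductSpace.PiL2
import Mathlib.LinearAlgebra.Matrix.Charpoly.Coeff
import Mathlib.LinearAlgebra.Matrix.Block

set_option autoImplicit false
set_option linter.unusedSectionVars false

/-!
# Unitary-type representations of the matrix monoid are determined by highest weight vectors
-/

open scoped InnerProductSpace ComplexConjugate

namespace Vale.Agent.P181.H530

open Vale.Agent.P181.H280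

variable {n : ℕ}

/-- If the leading minors of `k` do not vanish, a lower unitriangular `A` makes `A k` upper
triangular. -/
lemma exists_lower (k : Matrix (Fin n) (Fin n) ℂ)
    (hk : ∀ i : Fin n, (k.submatrix (Subtype.val : {j : Fin n // j < i} → Fin n)
      Subtype.val).det ≠ 0) (hdet : k.det ≠ 0) :
    ∃ A : Matrix (Fin n) (Fin n) ℂ, (∀ i j, i < j → A i j = 0) ∧ (∀ i, A i i = 1) ∧
      IsBorel (A * k) := by
  classical
  let c : ∀ i : Fin n, {j : Fin n // j < i} → ℂ := fun i =>
    Matrix.vecMul (fun l : {j : Fin n // j < i} => - k i l)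
      (k.submatrix (Subtype.val : {j : Fin n // j < i} → Fin n) Subtype.val)⁻¹
  have hc : ∀ i (l : {j : Fin n // j < i}), ∑ j, c i j * k j l = - k i l := by
    intro i l
    have h1 : Matrix.vecMul (c i) (k.submatrix (Subtype.val : {j : Fin n // j < i} → Fin n)
        Subtype.val) = fun l : {j : Fin n // j < i} => - k i l := by
      simp only [c]
      rw [Matrix.vecMul_vecMul, Matrix.nonsing_inv_mul _ (isUnit_iff_ne_zero.2 (hk i)),
        Matrix.vecMul_one]
    exact congrFun h1 l
  let A : Matrix (Fin n) (Fin n) ℂ := Matrix.of fun i j =>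
    if h : j < i then c i ⟨j, h⟩ else if j = i then 1 else 0
  have hA1 : ∀ i j, i < j → A i j = 0 := by
    intro i j hij
    simp only [A, Matrix.of_apply]
    rw [dif_neg (not_lt.2 hij.le), if_neg hij.ne']
  have hA2 : ∀ i, A i i = 1 := by
    intro i
    simp only [A, Matrix.of_apply]
    rw [dif_neg (lt_irrefl i)]
    exact if_pos trivial
  have hAk : ∀ i j, j < i → (A * k) i j = 0 := by
    intro i l hl
    rw [Matrix.mul_apply, ← Fintype.sum_subtype_add_sum_subtype (fun j => j < i)]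
    have h1 : ∑ j : {j : Fin n // j < i}, A i j * k j l = - k i l := by
      rw [← hc i ⟨l, hl⟩]
      refine Finset.sum_congr rfl fun j _ => ?_
      simp only [A, Matrix.of_apply]
      rw [dif_pos j.2]
    have h2 : ∑ j : {j : Fin n // ¬ j < i}, A i j * k j l = k i l := by
      rw [Finset.sum_eq_single ⟨i, lt_irrefl i⟩]
      · rw [hA2, one_mul]
      · intro j _ hj
        have h3 : (j : Fin n) ≠ i := fun h => hj (Subtype.ext h)
        have h4 : i < j := lt_of_le_of_ne (not_lt.1 j.2) h3.symm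
        rw [hA1 i j h4, zero_mul]
      · intro h; exact absurd (Finset.mem_univ _) h
    rw [h1, h2, neg_add_cancel]
  refine ⟨A, hA1, hA2, hAk, ?_⟩
  have hdetA : A.det = 1 := by
    have : A.IsLowerTriangular := fun i j hij => hA1 i j hij
    rw [Matrix.det_of_isLowerTriangular A this]
    exact Finset.prod_eq_one fun i _ => hA2 i
  have hdetAk : (A * k).det = ∏ i, (A * k) i i := by
    have : (A * k).IsUpperTriangular := fun i j hij => hAk i j hij
    exact Matrix.det_of_isUpperTriangular this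
  intro i hi
  have h5 : (A * k).det = 0 := by
    rw [hdetAk]
    exact Finset.prod_eq_zero (Finset.mem_univ i) hi
  rw [Matrix.det_mul, hdetA, one_mul] at h5
  exact hdet h5

/-- Continuous functions on matrices that agree when the leading minors do not vanish agree. -/
lemma eq_of_generic {F G : Matrix (Fin n) (Fin n) ℂ → ℂ} (hF : Continuous F) (hG : Continuous G)
    (h : ∀ k : Matrix (Fin n) (Fin n) ℂ,
      (∀ i : Fin n, (k.submatrix (Subtype.val : {j : Fin n // j < i} → Fin n)
        Subtype.val).det ≠ 0) → k.det ≠ 0 → F k = G k) : F = G := by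
  classical
  funext k
  let P : Fin n → Polynomial ℂ := fun i =>
    (-(k.submatrix (Subtype.val : {j : Fin n // j < i} → Fin n) Subtype.val)).charpoly
  let Q : Polynomial ℂ := (-k).charpoly * ∏ i, P i
  have hQ : Q ≠ 0 := by
    refine mul_ne_zero (Matrix.charpoly_monic _).ne_zero (Finset.prod_ne_zero_iff.2 fun i _ => ?_)
    exact (Matrix.charpoly_monic _).ne_zero
  have hfin : {t : ℂ | Q.IsRoot t}.Finite := Polynomial.finite_setOfPred_isRoot hQ
  have hdense : Dense ({t : ℂ | Q.IsRoot t}ᶜ) := hfin.countable.dense_compl ℂ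
  have hcont : Continuous (fun t : ℂ => k + Matrix.scalar (Fin n) t) := by
    refine continuous_const.add ?_
    refine continuous_matrix fun i j => ?_
    by_cases hij : i = j
    · subst hij
      simp only [Matrix.scalar_apply, Matrix.diagonal_apply_eq]
      exact continuous_id
    · simp only [Matrix.scalar_apply, Matrix.diagonal_apply_ne _ hij]
      exact continuous_const
  have key : (fun t : ℂ => F (k + Matrix.scalar (Fin n) t)) =
      fun t : ℂ => G (k + Matrix.scalar (Fin n) t) := by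
    refine Continuous.ext_on hdense (hF.comp hcont) (hG.comp hcont) ?_
    intro t ht
    have ht' : Q.eval t ≠ 0 := ht
    simp only [Q] at ht'
    rw [Polynomial.eval_mul, Polynomial.eval_prod] at ht'
    have h1 := left_ne_zero_of_mul ht'
    have h2 := right_ne_zero_of_mul ht'
    refine h _ (fun i => ?_) ?_
    · have h3 := Finset.prod_ne_zero_iff.1 h2 i (Finset.mem_univ _)
      simp only [P] at h3
      rw [Matrix.eval_charpoly, sub_neg_eq_add] at h3
      have h4 : (k + Matrix.scalar (Fin n) t).submatrix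
          (Subtype.val : {j : Fin n // j < i} → Fin n) Subtype.val =
          Matrix.scalar _ t + k.submatrix (Subtype.val : {j : Fin n // j < i} → Fin n)
            Subtype.val := by
        ext p q
        simp only [Matrix.submatrix_apply, Matrix.add_apply, Matrix.scalar_apply,
          Matrix.diagonal_apply, Subtype.val_inj]
        ring
      rw [h4]
      exact h3
    · rw [Matrix.eval_charpoly, sub_neg_eq_add, add_comm] at h1
      exact h1
  have h0 := congrFun key 0
  simpa using h0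

/-- A representation of the matrix monoid on an inner product space such that the adjoint of
`ρ(g)` is `ρ(g*)`, with enough highest weight vectors. -/
structure StarRep {M : Type} [NormedAddCommGroup M] [InnerProductSpace ℂ M]
    (ρ : Matrix (Fin n) (Fin n) ℂ → M →ₗ[ℂ] M) : Prop where
  mul : ∀ g h x, ρ (g * h) x = ρ g (ρ h x)
  one : ∀ x, ρ 1 x = x
  adj : ∀ g x y, ⟪ρ g x, y⟫_ℂ = ⟪x, ρ g.conjTranspose y⟫_ℂ
  cont : ∀ x y, Continuous (fun g => ⟪y, ρ g x⟫_ℂ)
  hw : ∀ W : Submodule ℂ M, (∀ g, ∀ w ∈ W, ρ g w ∈ W) → W ≠ ⊥ →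
    ∃ lam : Fin n → ℕ, ∃ w ∈ W, w ≠ 0 ∧ w ∈ hwSpace lam ρ

section

variable {M : Type} [NormedAddCommGroup M] [InnerProductSpace ℂ M]
  {ρ : Matrix (Fin n) (Fin n) ℂ → M →ₗ[ℂ] M}

/-- The value of the matrix coefficient at a generic matrix. -/
lemma StarRep.coeff_generic (hρ : StarRep ρ) {lam mu : Fin n → ℕ} {x y : M}
    (hx : x ∈ hwSpace lam ρ) (hy : y ∈ hwSpace mu ρ) {A k : Matrix (Fin n) (Fin n) ℂ}
    (hA1 : ∀ i j, i < j → A i j = 0) (hA2 : ∀ i, A i i = 1) (hAk : IsBorel (A * k)) :
    ⟪y, ρ k x⟫_ℂ = (∏ i, (A * k) i i ^ lam i) * ⟪y, x⟫_ℂ := by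
  have h1 : ρ A.conjTranspose y = y := by
    have hB : IsBorel A.conjTranspose := by
      refine ⟨fun i j hij => ?_, fun i => ?_⟩
      · rw [Matrix.conjTranspose_apply, hA1 j i hij, star_zero]
      · rw [Matrix.conjTranspose_apply, hA2, star_one]
        exact one_ne_zero
    rw [hy _ hB]
    have : ∏ i, A.conjTranspose i i ^ mu i = 1 := by
      refine Finset.prod_eq_one fun i _ => ?_
      rw [Matrix.conjTranspose_apply, hA2, star_one, one_pow]
    rw [this, one_smul]
  have h2 : ⟪y, ρ (A * k) x⟫_ℂ = ⟪y, ρ k x⟫_ℂ := by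
    rw [hρ.mul]
    conv_rhs => rw [← h1]
    rw [hρ.adj, Matrix.conjTranspose_conjTranspose]
  rw [← h2, hx _ hAk, inner_smul_right]

/-- Highest weight vectors of different weights are orthogonal. -/
lemma StarRep.orth (hρ : StarRep ρ) {lam mu : Fin n → ℕ} (hne : lam ≠ mu) {x y : M}
    (hx : x ∈ hwSpace lam ρ) (hy : y ∈ hwSpace mu ρ) : ⟪y, x⟫_ℂ = 0 := by
  obtain ⟨i, hi⟩ := Function.ne_iff.1 hne
  let d : Fin n → ℂ := Function.update (fun _ => 1) i 2
  have hdne : ∀ j, d j ≠ 0 := by
    intro j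
    by_cases h : j = i
    · subst h; simp [d]
    · simp [d, h]
  have hB : IsBorel (Matrix.diagonal d) :=
    ⟨fun p q hpq => Matrix.diagonal_apply_ne _ hpq.ne',
      fun p => by rw [Matrix.diagonal_apply_eq]; exact hdne p⟩
  have hprod : ∀ ν : Fin n → ℕ, ∏ j, (Matrix.diagonal d) j j ^ ν j = (2 : ℂ) ^ ν i := by
    intro ν
    rw [Finset.prod_eq_single i]
    · rw [Matrix.diagonal_apply_eq]
      simp [d]
    · intro j _ hj
      rw [Matrix.diagonal_apply_eq]
      simp [d, hj]
    · intro h; exact absurd (Finset.mem_univ _) h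
  have hct : (Matrix.diagonal d).conjTranspose = Matrix.diagonal d := by
    rw [Matrix.diagonal_conjTranspose]
    congr 1
    funext j
    by_cases h : j = i
    · subst h; simp [d]
    · simp [d, h]
  have h1 : ⟪y, ρ (Matrix.diagonal d) x⟫_ℂ = (2 : ℂ) ^ lam i * ⟪y, x⟫_ℂ := by
    rw [hx _ hB, hprod, inner_smul_right]
  have h2 : ⟪y, ρ (Matrix.diagonal d) x⟫_ℂ = (2 : ℂ) ^ mu i * ⟪y, x⟫_ℂ := by
    have h3 := hρ.adj (Matrix.diagonal d) y x
    rw [hct] at h3
    rw [← h3, hy _ hB, hprod, inner_smul_left, map_pow, Complex.conj_ofNat]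
  have h4 : ((2 : ℂ) ^ lam i - (2 : ℂ) ^ mu i) * ⟪y, x⟫_ℂ = 0 := by
    rw [sub_mul, ← h1, ← h2, sub_self]
  refine (mul_eq_zero.1 h4).resolve_left fun h5 => hi ?_
  have h6 : (2 : ℂ) ^ lam i = (2 : ℂ) ^ mu i := sub_eq_zero.1 h5
  have h7 : (2 : ℕ) ^ lam i = 2 ^ mu i := by exact_mod_cast h6
  exact Nat.pow_right_injective (le_refl 2) h7

/-- The translates of the highest weight vectors span. -/
lemma StarRep.span [FiniteDimensional ℂ M] (hρ : StarRep ρ) :
    Submodule.span ℂ {z | ∃ g, ∃ lam : Fin n → ℕ, ∃ x ∈ hwSpace lam ρ, ρ g x = z} = ⊤ := by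
  set S := Submodule.span ℂ {z | ∃ g, ∃ lam : Fin n → ℕ, ∃ x ∈ hwSpace lam ρ, ρ g x = z} with hS
  have hinv : ∀ g, ∀ w ∈ S, ρ g w ∈ S := by
    intro g w hw
    rw [hS] at hw
    induction hw using Submodule.span_induction with
    | mem w h =>
      obtain ⟨g', lam, x, hx, rfl⟩ := h
      rw [← hρ.mul]
      exact Submodule.subset_span ⟨_, lam, x, hx, rfl⟩
    | zero => rw [map_zero]; exact Submodule.zero_mem _
    | add u v _ _ hu hv => rw [map_add]; exact Submodule.add_mem _ hu hv
    | smul c u _ hu => rw [map_smul]; exact Submodule.smul_mem _ _ hu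
  rw [← Submodule.orthogonal_eq_bot_iff]
  by_contra hne
  have hinv2 : ∀ g, ∀ w ∈ Sᗮ, ρ g w ∈ Sᗮ := by
    intro g w hw
    rw [Submodule.mem_orthogonal] at hw ⊢
    intro u hu
    have h1 := hρ.adj g.conjTranspose u w
    rw [Matrix.conjTranspose_conjTranspose] at h1
    rw [← h1]
    exact hw _ (hinv _ _ hu)
  obtain ⟨lam, w, hwW, hw0, hwh⟩ := hρ.hw Sᗮ hinv2 hne
  have h1 : w ∈ S := by
    rw [← hρ.one w]
    exact Submodule.subset_span ⟨1, lam, w, hwh, rfl⟩
  have h2 : ⟪w, w⟫_ℂ = 0 := (Submodule.mem_orthogonal _ _).1 hwW w h1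
  exact hw0 (inner_self_eq_zero.1 h2)

end

/-- Isometries exist when the dimension does not drop. -/
lemma exists_isometry {E F : Type} [NormedAddCommGroup E] [InnerProductSpace ℂ E]
    [FiniteDimensional ℂ E] [NormedAddCommGroup F] [InnerProductSpace ℂ F] [FiniteDimensional ℂ F]
    (h : Module.finrank ℂ E ≤ Module.finrank ℂ F) :
    ∃ φ : E →ₗ[ℂ] F, ∀ x y, ⟪φ x, φ y⟫_ℂ = ⟪x, y⟫_ℂ := by
  let bE := stdOrthonormalBasis ℂ E
  let bF := stdOrthonormalBasis ℂ F
  let f : E →ₗ[ℂ] F := bE.toBasis.constr ℂ (fun i => bF (Fin.castLE h i))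
  have hf : Orthonormal ℂ (f ∘ bE.toBasis) := by
    have h1 : (f ∘ bE.toBasis) = (fun i => bF (Fin.castLE h i)) := by
      funext i
      simp only [f, Function.comp_apply, Module.Basis.constr_basis]
    rw [h1]
    exact bF.orthonormal.comp _ (Fin.castLE_injective h)
  have hE : Orthonormal ℂ bE.toBasis := by
    rw [OrthonormalBasis.coe_toBasis]
    exact bE.orthonormal
  let g := f.isometryOfOrthonormal hE hf
  refine ⟨f, fun x y => ?_⟩
  exact g.inner_map_map x y

/-- **Embedding of representations.** -/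
theorem StarRep.embed {M N : Type} [NormedAddCommGroup M] [InnerProductSpace ℂ M]
    [FiniteDimensional ℂ M] [NormedAddCommGroup N] [InnerProductSpace ℂ N] [FiniteDimensional ℂ N]
    {ρ : Matrix (Fin n) (Fin n) ℂ → M →ₗ[ℂ] M} {τ : Matrix (Fin n) (Fin n) ℂ → N →ₗ[ℂ] N}
    (hρ : StarRep ρ) (hτ : StarRep τ)
    (h : ∀ lam : Fin n → ℕ, Module.finrank ℂ (hwSpace lam ρ) ≤ Module.finrank ℂ (hwSpace lam τ)) :
    ∃ Ψ : M →ₗ[ℂ] N, Function.Injective Ψ ∧ ∀ g x, Ψ (ρ g x) = τ g (Ψ x) := by
  classical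
  choose φ hφ using fun lam => exists_isometry (h lam)
  -- matrix coefficients agree
  have hcoef : ∀ (lam mu : Fin n → ℕ) (x : hwSpace lam ρ) (y : hwSpace mu ρ)
      (k : Matrix (Fin n) (Fin n) ℂ),
      ⟪(y : M), ρ k x⟫_ℂ = ⟪((φ mu y : hwSpace mu τ) : N), τ k (φ lam x : hwSpace lam τ)⟫_ℂ := by
    intro lam mu x y
    have hxy : ⟪(y : M), (x : M)⟫_ℂ =
        ⟪((φ mu y : hwSpace mu τ) : N), ((φ lam x : hwSpace lam τ) : N)⟫_ℂ := by
      by_cases hlm : lam = mu
      · subst hlm
        exact (hφ lam y x).symm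
      · rw [hρ.orth hlm x.2 y.2, hτ.orth hlm (φ lam x).2 (φ mu y).2]
    intro k
    refine congrFun (eq_of_generic (hρ.cont (x : M) (y : M)) (hτ.cont _ _) ?_) k
    intro k hk hdet
    obtain ⟨A, hA1, hA2, hAk⟩ := exists_lower k hk hdet
    rw [hρ.coeff_generic x.2 y.2 hA1 hA2 hAk, hτ.coeff_generic (φ lam x).2 (φ mu y).2 hA1 hA2 hAk,
      hxy]
  let I : Type := Matrix (Fin n) (Fin n) ℂ × (Σ lam : Fin n → ℕ, hwSpace lam ρ)
  let A : (I →₀ ℂ) →ₗ[ℂ] M := Finsupp.linearCombination ℂ (fun p : I => ρ p.1 (p.2.2 : M))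
  let B : (I →₀ ℂ) →ₗ[ℂ] N :=
    Finsupp.linearCombination ℂ (fun p : I => τ p.1 (φ p.2.1 p.2.2 : hwSpace p.2.1 τ))
  have hAs : ∀ (p : I) (c : ℂ), A (Finsupp.single p c) = c • ρ p.1 (p.2.2 : M) := by
    intro p c
    exact Finsupp.linearCombination_single _ _ _
  have hBs : ∀ (p : I) (c : ℂ), B (Finsupp.single p c) =
      c • τ p.1 (φ p.2.1 p.2.2 : hwSpace p.2.1 τ) := by
    intro p c
    exact Finsupp.linearCombination_single _ _ _
  have hAB : ∀ u v : I →₀ ℂ, ⟪A u, A v⟫_ℂ = ⟪B u, B v⟫_ℂ := by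
    intro u v
    induction u using Finsupp.induction_linear with
    | zero => rw [map_zero, map_zero, inner_zero_left, inner_zero_left]
    | add u1 u2 h1 h2 => rw [map_add, map_add, inner_add_left, inner_add_left, h1, h2]
    | single p c =>
      induction v using Finsupp.induction_linear with
      | zero => rw [map_zero, map_zero, inner_zero_right, inner_zero_right]
      | add v1 v2 h1 h2 =>
        rw [map_add, map_add, inner_add_right, inner_add_right, h1, h2]
      | single q d =>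
        rw [hAs, hAs, hBs, hBs, inner_smul_left, inner_smul_left, inner_smul_right,
          inner_smul_right, hρ.adj, hτ.adj, ← hρ.mul, ← hτ.mul,
          hcoef q.2.1 p.2.1 q.2.2 p.2.2]
  have hker : ∀ u, A u = 0 ↔ B u = 0 := by
    intro u
    rw [← inner_self_eq_zero (𝕜 := ℂ), hAB, inner_self_eq_zero]
  have hsurj : Function.Surjective A := by
    rw [← LinearMap.range_eq_top, ← top_le_iff, ← hρ.span, Submodule.span_le]
    rintro z ⟨g, lam, x, hx, rfl⟩
    refine ⟨Finsupp.single (g, ⟨lam, ⟨x, hx⟩⟩) 1, ?_⟩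
    rw [hAs, one_smul]
  obtain ⟨s, hs⟩ := A.exists_rightInverse_of_surjective (LinearMap.range_eq_top.2 hsurj)
  have hs' : ∀ z, A (s z) = z := fun z => LinearMap.congr_fun hs z
  have hΨ : ∀ u, B (s (A u)) = B u := by
    intro u
    rw [← sub_eq_zero, ← map_sub, ← hker, map_sub, hs', sub_self]
  refine ⟨B ∘ₗ s, ?_, ?_⟩
  · rw [injective_iff_map_eq_zero]
    intro z hz
    rw [LinearMap.comp_apply, ← hker, hs'] at hz
    exact hz
  · intro g z
    obtain ⟨u, rfl⟩ := hsurj z
    rw [LinearMap.comp_apply, LinearMap.comp_apply, hΨ]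
    induction u using Finsupp.induction_linear with
    | zero => simp only [map_zero]
    | add u1 u2 h1 h2 => simp only [map_add, h1, h2]
    | single p c =>
      have h1 : ρ g (A (Finsupp.single p c)) = A (Finsupp.single (g * p.1, p.2) c) := by
        rw [hAs, hAs, map_smul, hρ.mul]
      rw [h1, hΨ, hBs, hBs, map_smul, hτ.mul]

end Vale.Agent.P181.H530
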