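import Vale.Agent.P181.H530.Inj3
import Mathlib.RingTheory.MvPolynomial.Homogeneous

set_option autoImplicit false
set_option linter.unusedSectionVars false

/-!
# From multiplicities to an injective equivariant map
-/

open scoped TensorProduct ComplexConjugate
open MvPolynomial

namespace Vale.Agent.P181.H530

open Vale.Agent.P181 Vale.Agent.P181.H280 Vale.Agent.P181.T4

/-- The data of `StarRep` with an explicit form. -/
structure CRep {n : ℕ} {M : Type} [AddCommGroup M] [Module ℂ M] (B : M → M → ℂ)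
    (ρ : Matrix (Fin n) (Fin n) ℂ → M →ₗ[ℂ] M) : Prop where
  symm : ∀ x y, conj (B y x) = B x y
  nonneg : ∀ x, 0 ≤ (B x x).re
  add_left : ∀ x y z, B (x + y) z = B x z + B y z
  smul_left : ∀ (c : ℂ) x y, B (c • x) y = conj c * B x y
  definite : ∀ x, B x x = 0 → x = 0
  mul : ∀ g h x, ρ (g * h) x = ρ g (ρ h x)
  one : ∀ x, ρ 1 x = x
  adj : ∀ g x y, B (ρ g x) y = B x (ρ g.conjTranspose y)
  cont : ∀ x y, Continuous (fun g => B y (ρ g x))
  hw : ∀ W : Submodule ℂ M, (∀ g, ∀ w ∈ W, ρ g w ∈ W) → W ≠ ⊥ →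
    ∃ lam : Fin n → ℕ, ∃ w ∈ W, w ≠ 0 ∧ w ∈ hwSpace lam ρ

/-- The inner product. -/
@[reducible] def CRep.core {n : ℕ} {M : Type} [AddCommGroup M] [Module ℂ M] {B : M → M → ℂ}
    {ρ : Matrix (Fin n) (Fin n) ℂ → M →ₗ[ℂ] M} (h : CRep B ρ) : InnerProductSpace.Core ℂ M where
  inner := B
  conj_inner_symm := h.symm
  re_inner_nonneg := h.nonneg
  add_left := h.add_left
  smul_left := fun x y c => h.smul_left c x y
  definite := h.definite

theorem CRep.embed {n : ℕ} {M N : Type} [iM : AddCommGroup M] [jM : Module ℂ M]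
    [fM : FiniteDimensional ℂ M] [iN : AddCommGroup N] [jN : Module ℂ N]
    [fN : FiniteDimensional ℂ N] {B : M → M → ℂ}
    {ρ : Matrix (Fin n) (Fin n) ℂ → M →ₗ[ℂ] M} (hρ : CRep B ρ) {B' : N → N → ℂ}
    {τ : Matrix (Fin n) (Fin n) ℂ → N →ₗ[ℂ] N} (hτ : CRep B' τ)
    (h : ∀ lam : Fin n → ℕ, Module.finrank ℂ (hwSpace lam ρ) ≤ Module.finrank ℂ (hwSpace lam τ)) :
    ∃ Ψ : M →ₗ[ℂ] N, Function.Injective Ψ ∧ ∀ g x, Ψ (ρ g x) = τ g (Ψ x) := by
  let nM : NormedAddCommGroup M :=
    @InnerProductSpace.Core.toNormedAddCommGroup ℂ M _ iM jM hρ.core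
  let pM : InnerProductSpace ℂ M :=
    @InnerProductSpace.ofCore ℂ M _ iM jM hρ.core.toCore
  let nN : NormedAddCommGroup N :=
    @InnerProductSpace.Core.toNormedAddCommGroup ℂ N _ iN jN hτ.core
  let pN : InnerProductSpace ℂ N :=
    @InnerProductSpace.ofCore ℂ N _ iN jN hτ.core.toCore
  have h1 : StarRep ρ := ⟨hρ.mul, hρ.one, hρ.adj, hρ.cont, hρ.hw⟩
  have h2 : StarRep τ := ⟨hτ.mul, hτ.one, hτ.adj, hτ.cont, hτ.hw⟩
  exact h1.embed h2 h

/-- `theta` has homogeneous values. -/
lemma theta_hom (n a b : ℕ) (x : Sym[ℂ]^a (Sym[ℂ]^b (Fin n → ℂ))) :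
    (theta n a b x).IsHomogeneous (a * b) := by
  rw [← mem_homogeneousSubmodule]
  let f : Sym[ℂ]^a (Sym[ℂ]^b (Fin n → ℂ)) →ₗ[ℂ]
      MvPolynomial (Fin n × Fin a) ℂ ⧸ homogeneousSubmodule (Fin n × Fin a) ℂ (a * b) :=
    (Submodule.mkQ _) ∘ₗ (theta n a b)
  have hf : f = 0 := by
    apply pure_hom_ext
    intro v
    change Submodule.mkQ _ (theta n a b _) = 0
    rw [Submodule.mkQ_apply, Submodule.Quotient.mk_eq_zero, theta_tprod]
    refine Submodule.sum_mem _ fun σ _ => ?_
    rw [mem_homogeneousSubmodule]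
    have h1 : ∀ j : Fin a, (∏ t, colLin n j (v (σ j) t)).IsHomogeneous b := by
      intro j
      have h := IsHomogeneous.prod Finset.univ (fun t => colLin n j (v (σ j) t)) (fun _ => 1)
        (fun t _ => by
          rw [colLin_apply]
          refine IsHomogeneous.sum _ _ _ fun i _ => ?_
          rw [smul_eq_C_mul]
          exact isHomogeneous_C_mul_X _ _)
      simpa using h
    have h2 := IsHomogeneous.prod Finset.univ (fun j => ∏ t, colLin n j (v (σ j) t)) (fun _ => b)
      (fun j _ => h1 j)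
    simpa using h2
  have h1 : f x = 0 := by rw [hf]; rfl
  change Submodule.mkQ _ (theta n a b x) = 0 at h1
  rwa [Submodule.mkQ_apply, Submodule.Quotient.mk_eq_zero] at h1

/-- `theta` on `Pleth`. -/
noncomputable def thetaP (a b n : ℕ) : Pleth a b n →ₗ[ℂ] MvPolynomial (Fin n × Fin a) ℂ :=
  theta n a b

/-- The image of `theta`. -/
noncomputable def PM (a b n : ℕ) : Submodule ℂ (MvPolynomial (Fin n × Fin a) ℂ) :=
  LinearMap.range (thetaP a b n)

lemma thetaP_act (a b n : ℕ) (g : Matrix (Fin n) (Fin n) ℂ) (x : Pleth a b n) :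
    thetaP a b n (plethAct a b n g x) = polyAct n (Fin a) g (thetaP a b n x) :=
  theta_act n a b g x

lemma PM_inv (a b n : ℕ) (g : Matrix (Fin n) (Fin n) ℂ) : ∀ w ∈ PM a b n,
    polyAct n (Fin a) g w ∈ PM a b n := by
  rintro w ⟨x, rfl⟩
  exact ⟨plethAct a b n g x, thetaP_act a b n g x⟩

/-- The action on the image. -/
noncomputable def pmAct (a b n : ℕ) (g : Matrix (Fin n) (Fin n) ℂ) :
    PM a b n →ₗ[ℂ] PM a b n :=
  (polyAct n (Fin a) g).restrict (PM_inv a b n g)

lemma pmAct_coe (a b n : ℕ) (g : Matrix (Fin n) (Fin n) ℂ) (x : PM a b n) :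
    (pmAct a b n g x : MvPolynomial (Fin n × Fin a) ℂ) = polyAct n (Fin a) g x := rfl

/-- The identification of `Pleth` with the image. -/
noncomputable def pmEquiv (a b n : ℕ) : Pleth a b n ≃ₗ[ℂ] PM a b n :=
  LinearEquiv.ofInjective (thetaP a b n) (theta_injective n a b)

lemma pmEquiv_coe (a b n : ℕ) (x : Pleth a b n) :
    (pmEquiv a b n x : MvPolynomial (Fin n × Fin a) ℂ) = thetaP a b n x := rfl

lemma pmEquiv_act (a b n : ℕ) (g : Matrix (Fin n) (Fin n) ℂ) (x : Pleth a b n) :
    pmEquiv a b n (plethAct a b n g x) = pmAct a b n g (pmEquiv a b n x) := by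
  apply Subtype.ext
  rw [pmEquiv_coe, pmAct_coe, pmEquiv_coe, thetaP_act]

lemma finrank_hwSpace (a b n : ℕ) (lam : Fin n → ℕ) :
    Module.finrank ℂ (hwSpace lam (pmAct a b n)) = plethMult a b n lam := by
  have h1 : hwSpace lam (pmAct a b n) =
      (hwSpace lam (plethAct a b n)).map (pmEquiv a b n).toLinearMap := by
    ext y
    constructor
    · intro hy
      refine ⟨(pmEquiv a b n).symm y, ?_, (pmEquiv a b n).apply_symm_apply y⟩
      intro g hg
      apply (pmEquiv a b n).injective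
      rw [pmEquiv_act, LinearEquiv.apply_symm_apply, map_smul, LinearEquiv.apply_symm_apply,
        hy g hg]
    · rintro ⟨x, hx, rfl⟩
      intro g hg
      rw [LinearEquiv.coe_coe, ← pmEquiv_act, hx g hg, map_smul]
  rw [h1, plethMult]
  exact LinearEquiv.finrank_map_eq (pmEquiv a b n) _

instance (a b n : ℕ) : FiniteDimensional ℂ (PM a b n) := by
  have : Module.Finite ℂ (Pleth a b n) :=
    inferInstanceAs (Module.Finite ℂ (Sym[ℂ]^a (Sym[ℂ]^b (Fin n → ℂ))))
  exact Module.Finite.equiv (pmEquiv a b n)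

/-- The polynomial model is a representation with an invariant form. -/
lemma pm_crep (a b n : ℕ) :
    CRep (fun f h : PM a b n => herm (f : MvPolynomial (Fin n × Fin a) ℂ) h) (pmAct a b n) where
  symm := fun x y => herm_conj _ _
  nonneg := fun x => herm_self_nonneg _
  add_left := fun x y z => herm_add_left _ _ _
  smul_left := fun c x y => herm_smul_left _ _ _
  definite := fun x hx => Subtype.ext (herm_definite _ hx)
  mul := fun g h x => Subtype.ext (polyAct_mul_mat g h _)
  one := fun x => Subtype.ext (polyAct_one _)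
  adj := fun g x y => herm_polyAct g _ _
  cont := fun x y => continuous_herm _ _
  hw := by
    intro W hW hne
    have hW' : ∀ g, ∀ w ∈ W.map (PM a b n).subtype,
        polyAct n (Fin a) g w ∈ W.map (PM a b n).subtype := by
      rintro g w ⟨x, hx, rfl⟩
      exact ⟨pmAct a b n g x, hW g x hx, rfl⟩
    have hdeg : ∀ w ∈ W.map (PM a b n).subtype, ∀ m ∈ w.support, ∑ p, m p ≤ a * b := by
      rintro w ⟨⟨x, ⟨y, hy⟩⟩, hx, rfl⟩ m hm
      have h1 : x.IsHomogeneous (a * b) := by
        rw [← hy]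
        exact theta_hom n a b y
      have h2 : m.degree = a * b := by
        rw [Finsupp.degree_eq_weight_one]
        exact h1 (mem_support_iff.1 hm)
      rw [Finsupp.degree_eq_sum] at h2
      exact h2.le
    have hne' : W.map (PM a b n).subtype ≠ ⊥ := by
      intro h
      apply hne
      rw [eq_bot_iff]
      intro x hx
      have h1 : (PM a b n).subtype x ∈ W.map (PM a b n).subtype := ⟨x, hx, rfl⟩
      rw [h, Submodule.mem_bot] at h1
      rw [Submodule.mem_bot]
      exact Subtype.ext h1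
    obtain ⟨lam, w, ⟨x, hx, rfl⟩, hw0, hwh⟩ := exists_hw hW' (a * b) hdeg hne'
    refine ⟨lam, x, hx, fun h => hw0 (by rw [h, map_zero]), fun g hg => ?_⟩
    apply Subtype.ext
    exact hwh g hg

/-- **From multiplicities to an injective equivariant map.** -/
theorem exists_injective (a b n : ℕ)
    (h : ∀ lam : Fin n → ℕ, plethMult a b n lam ≤ plethMult b a n lam) :
    ∃ Ψ : Pleth a b n →ₗ[ℂ] Pleth b a n, IsEquivariant Ψ ∧ Function.Injective Ψ := by
  obtain ⟨Ψ, h1, h2⟩ := (pm_crep a b n).embed (pm_crep b a n) (fun lam => by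
    rw [finrank_hwSpace, finrank_hwSpace]
    exact h lam)
  refine ⟨(pmEquiv b a n).symm.toLinearMap ∘ₗ Ψ ∘ₗ (pmEquiv a b n).toLinearMap, ?_, ?_⟩
  · intro g x
    rw [LinearMap.comp_apply, LinearMap.comp_apply, LinearMap.comp_apply, LinearMap.comp_apply,
      LinearEquiv.coe_coe, LinearEquiv.coe_coe, pmEquiv_act, h2]
    apply (pmEquiv b a n).injective
    rw [LinearEquiv.apply_symm_apply, pmEquiv_act, LinearEquiv.apply_symm_apply]
  · exact (pmEquiv b a n).symm.injective.comp (h1.comp (pmEquiv a b n).injective)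

end Vale.Agent.P181.H530
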