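import Vale.Agent.P181.Z.H592.Real
import Vale.Agent.P181.Z.H463.Ideal

set_option autoImplicit false

/-!
# P181, [Z]: the kernel of the Foulkes-Howe map as an ideal of the letter ring
-/

open scoped TensorProduct

namespace Vale.Agent.P181.H530.KHI

open MvPolynomial Vale.Agent.P181 Vale.Agent.P181.H280 Vale.Agent.P181.FR Vale.Agent.P181.T4
  Vale.Agent.P181.H530.Torus Vale.Agent.P181.Z.H592 Vale.Agent.P181.Z463

variable {n N a : ℕ}

/-- The type of a word. -/
def ty (g : Fin a → Fin n) : Fin n → ℕ := fun i => (Finset.univ.filter (fun k => g k = i)).card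

lemma sum_ty (g : Fin a → Fin n) : ∑ i, ty g i = a := by
  have h := Finset.card_eq_sum_card_fiberwise (s := (Finset.univ : Finset (Fin a)))
    (t := (Finset.univ : Finset (Fin n))) (f := g) (fun _ _ => Finset.mem_coe.2 (Finset.mem_univ _))
  rw [Finset.card_univ, Fintype.card_fin] at h
  exact h.symm

lemma exists_word {v : Fin n → ℕ} (hv : ∑ i, v i = a) : ∃ g : Fin a → Fin n, ty g = v := by
  classical
  obtain ⟨s, hs⟩ : ∃ s : Multiset (Fin n), ∀ i, Multiset.count i s = v i := by
    refine ⟨Finsupp.toMultiset (Finsupp.equivFunOnFinite.symm v), fun i => ?_⟩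
    rw [Finsupp.count_toMultiset]
    rfl
  have hcard : s.card = a := by
    rw [← hv, ← Multiset.sum_count_eq_card (s := Finset.univ) (fun _ _ => Finset.mem_univ _)]
    exact Finset.sum_congr rfl fun i _ => hs i
  obtain ⟨g, hg⟩ := exists_fam s hcard
  refine ⟨g, ?_⟩
  funext i
  rw [← hs i, ← hg, Multiset.count_map]
  simp only [eq_comm (a := i)]
  rfl

lemma exists_perm_ty {g g' : Fin a → Fin n} (h : ty g = ty g') :
    ∃ τ : Equiv.Perm (Fin a), ∀ k, g' (τ k) = g k := by
  classical
  have hc : ∀ c : Fin n, Fintype.card {k // g k = c} = Fintype.card {k // g' k = c} := by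
    intro c
    rw [Fintype.card_subtype, Fintype.card_subtype]
    exact congrFun h c
  let e : ∀ c : Fin n, {k // g k = c} ≃ {k // g' k = c} := fun c => Fintype.equivOfCardEq (hc c)
  exact ⟨Equiv.ofFiberEquiv e, fun k => Equiv.ofFiberEquiv_map e k⟩

/-- A word of type `v`. -/
noncomputable def wd (a : ℕ) {n : ℕ} (v : Fin n → ℕ) (hv : ∑ i, v i = a) : Fin a → Fin n :=
  (exists_word hv).choose

lemma ty_wd {v : Fin n → ℕ} (hv : ∑ i, v i = a) : ty (wd a v hv) = v :=
  (exists_word hv).choose_spec

open Classical in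
/-- The monomial of type `v` in `Sym^a`. -/
noncomputable def mono (a : ℕ) {n : ℕ} (v : Fin n → ℕ) : Sym[ℂ]^a (Fin n → ℂ) :=
  if hv : ∑ i, v i = a then
    SymmetricPower.tprod ℂ (fun k => (Pi.single (wd a v hv k) 1 : Fin n → ℂ)) else 0

lemma evalPow_mono {v : Fin n → ℕ} (hv : ∑ i, v i = a) (p : Fin n → ℂ) :
    evalPow a (dotF p) (mono a v) = ∏ i, p i ^ v i := by
  classical
  rw [mono, dif_pos hv, evalPow_tprod]
  simp only [dotF_single]
  rw [← Finset.prod_fiberwise_of_maps_to (s := Finset.univ) (t := Finset.univ)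
    (g := wd a v hv) (fun _ _ => Finset.mem_univ _)]
  refine Finset.prod_congr rfl fun i _ => ?_
  rw [Finset.prod_congr rfl (g := fun _ => p i)
    (fun k hk => by rw [(Finset.mem_filter.1 hk).2]), Finset.prod_const]
  congr 1
  exact congrFun (ty_wd hv) i

/-- The value at `N` functionals as a multilinear map. -/
noncomputable def valM (x : Pleth N a n) :
    MultilinearMap ℂ (fun _ : Fin N => Module.Dual ℂ (Sym[ℂ]^a (Fin n → ℂ))) ℂ :=
  ((LinearMap.applyₗ (symSum (Fin N) (Sym[ℂ]^a (Fin n → ℂ))
    (x : Sym[ℂ]^N (Sym[ℂ]^a (Fin n → ℂ))))) ∘ₗ PiTensorProduct.dualDistrib).compMultilinearMap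
      (PiTensorProduct.tprod ℂ)

lemma valM_apply (x : Pleth N a n) (φ : Fin N → Module.Dual ℂ (Sym[ℂ]^a (Fin n → ℂ))) :
    valM x φ = symEval φ (x : Sym[ℂ]^N (Sym[ℂ]^a (Fin n → ℂ))) := rfl

/-- The value of a polynomial at `N` functionals as a multilinear map. -/
noncomputable def polM (a : ℕ) (f : MvPolynomial (Fin n × Fin N) ℂ) :
    MultilinearMap ℂ (fun _ : Fin N => Module.Dual ℂ (Sym[ℂ]^a (Fin n → ℂ))) ℂ :=
  ∑ d ∈ f.support, coeff d f • (MultilinearMap.mkPiAlgebra ℂ (Fin N) ℂ).compLinearMap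
    (fun j => LinearMap.applyₗ (mono a (fun i => d (i, j))))

lemma polM_apply (f : MvPolynomial (Fin n × Fin N) ℂ)
    (φ : Fin N → Module.Dual ℂ (Sym[ℂ]^a (Fin n → ℂ))) :
    polM a f φ = ∑ d ∈ f.support, coeff d f * ∏ j, φ j (mono a (fun i => d (i, j))) := by
  simp only [polM, sum_apply]
  rfl

/-- **The value of a plethysm vector at a functional is the value of the letter polynomial.** -/
theorem symEval_eq {x : Pleth N a n} {f : MvPolynomial (Fin n × Fin N) ℂ}
    (hf : ∀ v : Fin n × Fin N →₀ ℕ, coeff v f ≠ 0 → ∀ j, ∑ i, v (i, j) = a)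
    (hx : evalP N n f = ptvL N a n x) (φ : Module.Dual ℂ (Sym[ℂ]^a (Fin n → ℂ))) :
    symEval (fun _ : Fin N => φ) (x : Sym[ℂ]^N (Sym[ℂ]^a (Fin n → ℂ))) =
      eval (fun v => φ (mono a v)) (lm n N f) := by
  have h1 : valM x = polM a f := by
    apply MultilinearMap.ext_of_span_eq_top (γ := fun _ => Fin n → ℂ)
      (g := fun _ p => (evalPow a (dotF p) : Module.Dual ℂ (Sym[ℂ]^a (Fin n → ℂ))))
    · intro _
      have h2 := Z463.span_evalPow (V := Fin n → ℂ) a
      rw [← h2]
      congr 1
      ext ψ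
      constructor
      · rintro ⟨p, rfl⟩
        exact ⟨dotF p, rfl⟩
      · rintro ⟨ξ, rfl⟩
        refine ⟨fun i => ξ (Pi.single i 1), ?_⟩
        have h3 : dotF (fun i => ξ (Pi.single i 1)) = ξ := by
          apply LinearMap.pi_ext'
          intro i
          apply LinearMap.ext_ring
          exact dotF_single _ _
        dsimp only
        rw [h3]
    · intro p
      have h2 : ptvL N a n x p = valM x (fun j => evalPow a (dotF (p j))) := rfl
      rw [← h2, ← hx, polM_apply, evalP_apply, eval_eq]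
      refine Finset.sum_congr rfl fun d hd => ?_
      congr 1
      have h3 : ∏ j : Fin N, evalPow a (dotF (p j)) (mono a (fun i => d (i, j))) =
          ∏ j : Fin N, ∏ i : Fin n, p j i ^ d (i, j) :=
        Finset.prod_congr rfl fun j _ => evalPow_mono (hf d (mem_support_iff.1 hd) j) (p j)
      rw [h3, Finset.prod_comm, ← Fintype.prod_prod_type (fun q : Fin n × Fin N => p q.2 q.1 ^ d q)]
      exact Finset.prod_subset (Finset.subset_univ _) fun q _ hq => by
        rw [Finsupp.notMem_support_iff.1 hq, pow_zero]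
  have h4 : symEval (fun _ : Fin N => φ) (x : Sym[ℂ]^N (Sym[ℂ]^a (Fin n → ℂ))) =
      polM a f (fun _ => φ) := by
    rw [← h1]
    rfl
  rw [h4, polM_apply]
  conv_rhs => rw [← support_sum_monomial_coeff f]
  rw [map_sum, map_sum]
  refine Finset.sum_congr rfl fun d _ => ?_
  have h5 : monomial d (coeff d f) = coeff d f • (monomial d 1 : MvPolynomial (Fin n × Fin N) ℂ) := by
    rw [smul_monomial, smul_eq_mul, mul_one]
  rw [h5, map_smul, smul_eval, lm_monomial, lmon, map_prod]
  congr 1
  exact Finset.prod_congr rfl fun j _ => by rw [eval_X]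

/-! ### The ideal -/

/-- The symmetrized product of the variables of a word. -/
noncomputable def Mw (g : Fin a → Fin n) : MvPolynomial (Fin n × Fin a) ℂ :=
  ∑ e : Equiv.Perm (Fin a), ∏ k, X (g (e k), k)

lemma Mw_perm (g : Fin a → Fin n) (τ : Equiv.Perm (Fin a)) : Mw (fun k => g (τ k)) = Mw g := by
  rw [Mw, Mw]
  exact Fintype.sum_equiv (Equiv.mulLeft τ) _ _ (fun e => rfl)

lemma Mw_congr {g g' : Fin a → Fin n} (h : ty g = ty g') : Mw g = Mw g' := by
  obtain ⟨τ, hτ⟩ := exists_perm_ty h
  rw [← Mw_perm g' τ]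
  congr 1
  funext k
  exact (hτ k).symm

open Classical in
/-- The polynomial of a letter. -/
noncomputable def Ml (a : ℕ) {n : ℕ} (v : Fin n → ℕ) : MvPolynomial (Fin n × Fin a) ℂ :=
  if hv : ∑ i, v i = a then Mw (wd a v hv) else 0

lemma eval_Ml (v : Fin n → ℕ) (q : Fin a → Fin n → ℂ) :
    eval (fun ik : Fin n × Fin a => q ik.2 ik.1) (Ml a v) =
      symEval (fun k => dotF (q k)) (mono a v) := by
  classical
  rw [Ml, mono]
  split_ifs with hv
  · rw [Mw, map_sum, symEval_tprod]
    refine Finset.sum_congr rfl fun e _ => ?_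
    rw [map_prod]
    refine Finset.prod_congr rfl fun k _ => ?_
    rw [eval_X, dotF_single]
  · rw [map_zero, map_zero]

/-- The derivation of the matrix ring. -/
noncomputable def DD (a : ℕ) {n : ℕ} (s i : Fin n) :
    Derivation ℂ (MvPolynomial (Fin n × Fin a) ℂ) (MvPolynomial (Fin n × Fin a) ℂ) :=
  mkDerivation ℂ (fun p => if p.1 = i then X (s, p.2) else 0)

lemma DD_X (s i : Fin n) (p : Fin n × Fin a) :
    DD a s i (X p) = if p.1 = i then X (s, p.2) else 0 := by
  rw [DD, mkDerivation_X]

lemma DD_Mw (s i : Fin n) (g : Fin a → Fin n) :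
    DD a s i (Mw g) = ∑ l ∈ Finset.univ.filter (fun l => g l = i), Mw (Function.update g l s) := by
  classical
  rw [Mw, map_sum]
  have h1 : ∀ e : Equiv.Perm (Fin a), DD a s i (∏ k, X (g (e k), k)) =
      ∑ l ∈ Finset.univ.filter (fun l => g l = i),
        ∏ k, (X (Function.update g l s (e k), k) : MvPolynomial (Fin n × Fin a) ℂ) := by
    intro e
    rw [Z.H592.deriv_prod, Finset.sum_filter, ← Equiv.sum_comp e (fun l => if g l = i then
      ∏ k, (X (Function.update g l s (e k), k) : MvPolynomial (Fin n × Fin a) ℂ) else 0)]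
    refine Finset.sum_congr rfl fun k _ => ?_
    rw [DD_X]
    dsimp only
    split_ifs with h
    · rw [← Finset.mul_prod_erase _ _ (Finset.mem_univ k), Function.update_self, mul_comm]
      congr 1
      refine Finset.prod_congr rfl fun k' hk' => ?_
      rw [Function.update_of_ne]
      intro h2
      exact Finset.ne_of_mem_erase hk' (e.injective h2)
    · rw [mul_zero]
  rw [Finset.sum_congr rfl (fun e _ => h1 e), Finset.sum_comm]
  rfl

lemma ty_update (g : Fin a → Fin n) (l : Fin a) (s : Fin n) :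
    ty (Function.update g l s) = mvL s (g l) (ty g) := by
  classical
  funext r
  rw [mvL_apply]
  have h1 : Finset.univ.filter (fun k => Function.update g l s k = r) =
      if r = s then insert l (Finset.univ.filter (fun k => g k = r))
      else (Finset.univ.filter (fun k => g k = r)).erase l := by
    ext k
    split_ifs with h
    · subst h
      rw [Finset.mem_filter, Finset.mem_insert, Finset.mem_filter]
      by_cases hk : k = l
      · subst hk
        simp
      · rw [Function.update_of_ne hk]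
        simp [hk]
    · rw [Finset.mem_filter, Finset.mem_erase, Finset.mem_filter]
      by_cases hk : k = l
      · subst hk
        simp [Ne.symm h]
      · rw [Function.update_of_ne hk]
        simp [hk]
  unfold ty
  rw [h1]
  by_cases h2 : r = s
  · rw [if_pos h2, if_pos h2]
    by_cases h3 : r = g l
    · have hm : l ∈ Finset.univ.filter (fun k => g k = r) :=
        Finset.mem_filter.2 ⟨Finset.mem_univ _, h3.symm⟩
      rw [if_pos h3, Finset.insert_eq_of_mem hm, Nat.add_sub_cancel]
    · rw [if_neg h3, Finset.card_insert_of_notMem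
        (fun h => h3 (Finset.mem_filter.1 h).2.symm), Nat.sub_zero]
  · rw [if_neg h2, if_neg h2, add_zero]
    by_cases h3 : r = g l
    · have hm : l ∈ Finset.univ.filter (fun k => g k = r) :=
        Finset.mem_filter.2 ⟨Finset.mem_univ _, h3.symm⟩
      rw [if_pos h3, Finset.card_erase_of_mem hm]
    · rw [if_neg h3, Finset.erase_eq_of_notMem (fun h => h3 (Finset.mem_filter.1 h).2.symm),
        Nat.sub_zero]

lemma sum_mvL {s i : Fin n} {v : Fin n → ℕ} (hi : v i ≠ 0) : ∑ r, mvL s i v r = ∑ r, v r := by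
  classical
  have h1 : ∑ r, (mvL s i v r + if r = i then 1 else 0) = ∑ r, (v r + if r = s then 1 else 0) := by
    refine Finset.sum_congr rfl fun r _ => ?_
    rw [mvL_apply]
    by_cases h : r = i
    · subst h
      rw [if_pos rfl]
      split_ifs <;> omega
    · rw [if_neg h, Nat.sub_zero, add_zero]
  rw [Finset.sum_add_distrib, Finset.sum_add_distrib, Finset.sum_ite_eq' Finset.univ i,
    Finset.sum_ite_eq' Finset.univ s, if_pos (Finset.mem_univ _), if_pos (Finset.mem_univ _)] at h1
  exact Nat.add_right_cancel h1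

lemma DD_Ml (s i : Fin n) (v : Fin n → ℕ) :
    DD a s i (Ml a v) = (v i : ℂ) • Ml a (mvL s i v) := by
  classical
  by_cases hi : v i = 0
  · rw [hi, Nat.cast_zero, zero_smul, Ml]
    split_ifs with hv
    · rw [DD_Mw]
      have h1 : Finset.univ.filter (fun l => wd a v hv l = i) = ∅ := by
        rw [← Finset.card_eq_zero]
        exact (congrFun (ty_wd hv) i).trans hi
      rw [h1, Finset.sum_empty]
    · rw [map_zero]
  · by_cases hv : ∑ i, v i = a
    · have hv' : ∑ r, mvL s i v r = a := (sum_mvL hi).trans hv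
      rw [Ml, Ml, dif_pos hv, dif_pos hv', DD_Mw]
      have h1 : ∀ l ∈ Finset.univ.filter (fun l => wd a v hv l = i),
          Mw (Function.update (wd a v hv) l s) = Mw (wd a (mvL s i v) hv') := by
        intro l hl
        apply Mw_congr
        rw [ty_update, ty_wd, ty_wd, (Finset.mem_filter.1 hl).2]
      rw [Finset.sum_congr rfl h1, Finset.sum_const, ← Nat.cast_smul_eq_nsmul ℂ]
      congr 2
      exact congrFun (ty_wd hv) i
    · have hv' : ¬ ∑ r, mvL s i v r = a := fun h => hv ((sum_mvL hi).symm.trans h)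
      rw [Ml, Ml, dif_neg hv, dif_neg hv', map_zero, smul_zero]

/-- The algebra map of the letters. -/
noncomputable def PsiA (n a : ℕ) : A n →ₐ[ℂ] MvPolynomial (Fin n × Fin a) ℂ :=
  aeval (fun v => Ml a v)

lemma PsiA_E (s i : Fin n) (f : A n) : PsiA n a (E s i f) = DD a s i (PsiA n a f) := by
  induction f using MvPolynomial.induction_on with
  | C c =>
    rw [← algebraMap_eq, Derivation.map_algebraMap, map_zero, AlgHom.commutes,
      Derivation.map_algebraMap]
  | add p q hp hq => rw [map_add, map_add, hp, hq, map_add, map_add]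
  | mul_X p v hp =>
    rw [Derivation.leibniz, map_add, smul_eq_mul, smul_eq_mul, map_mul, map_mul, hp, map_mul,
      Derivation.leibniz, smul_eq_mul, smul_eq_mul, E_X, map_smul]
    have h1 : PsiA n a (X v) = Ml a v := by rw [PsiA, aeval_X]
    have h2 : PsiA n a (X (mvL s i v)) = Ml a (mvL s i v) := by rw [PsiA, aeval_X]
    rw [h1, h2, DD_Ml]

/-- **The ideal of the kernel of the Foulkes-Howe map.** -/
noncomputable def IK (n a : ℕ) : Ideal (A n) := RingHom.ker (PsiA n a)

lemma mem_IK {f : A n} : f ∈ IK n a ↔ PsiA n a f = 0 := RingHom.mem_ker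

theorem E_mem_IK (s i : Fin n) {f : A n} (hf : f ∈ IK n a) : E s i f ∈ IK n a := by
  rw [mem_IK] at hf ⊢
  rw [PsiA_E, hf, map_zero]

/-- The ideal as a subspace. -/
noncomputable def IS (n a : ℕ) : Submodule ℂ (A n) := (IK n a).restrictScalars ℂ

lemma mem_IS {f : A n} : f ∈ IS n a ↔ PsiA n a f = 0 := mem_IK

lemma eval_PsiA (f : A n) (q : Fin a → Fin n → ℂ) :
    eval (fun ik : Fin n × Fin a => q ik.2 ik.1) (PsiA n a f) =
      eval (fun v => symEval (fun k => dotF (q k)) (mono a v)) f := by
  induction f using MvPolynomial.induction_on with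
  | C c =>
    rw [← algebraMap_eq, AlgHom.commutes, algebraMap_eq, algebraMap_eq, eval_C, eval_C]
  | add p q hp hq => rw [map_add, map_add, map_add, hp, hq]
  | mul_X p v hp =>
    rw [map_mul, map_mul, map_mul, hp, eval_X]
    congr 1
    rw [PsiA, aeval_X]
    exact eval_Ml v q

/-- The kernel in terms of the letter polynomial. -/
theorem ker_iff {x : Pleth N a n} {f : MvPolynomial (Fin n × Fin N) ℂ}
    (hf : ∀ v : Fin n × Fin N →₀ ℕ, coeff v f ≠ 0 → ∀ j, ∑ i, v (i, j) = a)
    (hx : evalP N n f = ptvL N a n x) :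
    foulkesHowe N a (Fin n → ℂ) x = 0 ↔ lm n N f ∈ IS n a := by
  rw [foulkesHowe_eq_zero_iff N a (x : Sym[ℂ]^N (Sym[ℂ]^a (Fin n → ℂ))), mem_IS]
  constructor
  · intro h
    apply MvPolynomial.funext
    intro y
    rw [map_zero]
    have h1 := eval_PsiA (a := a) (lm n N f) (fun k i => y (i, k))
    have h2 := symEval_eq hf hx (symEval (fun k : Fin a => dotF (fun i => y (i, k))))
    rw [h] at h2
    rw [← h2] at h1
    exact h1
  · intro h ξ
    have h3 : ξ = fun k => dotF (fun i => ξ k (Pi.single i 1)) := by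
      funext k
      apply LinearMap.pi_ext'
      intro i
      apply LinearMap.ext_ring
      exact (dotF_single (fun i => ξ k (Pi.single i 1)) i).symm
    rw [h3, symEval_eq hf hx, ← eval_PsiA, h, map_zero]

/-- **The kernel of the Foulkes-Howe map on the highest weight vectors.** -/
theorem finrank_KH_eq (N a n : ℕ) (theta : Fin n → ℕ) :
    Module.finrank ℂ (KH N a n theta) =
      Module.finrank ℂ (HA n N a theta ⊓ IS n a : Submodule ℂ (A n)) := by
  rw [← finrank_HA_inf]
  have h : (KH N a n theta).map (ptvL N a n) =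
      (W n N a (Up n) theta ⊓ (IS n a).comap (lm n N)).map (evalP N n) := by
    apply le_antisymm
    · rintro _ ⟨x, ⟨hx1, hx2⟩, rfl⟩
      obtain ⟨f, hf, hfx⟩ := exists_evalP (ptvL_mem x)
      have hcol : ∀ v : Fin n × Fin N →₀ ℕ, coeff v f ≠ 0 → ∀ j, ∑ i, v (i, j) = a :=
        fun v hv j => (weight_colW j v).symm.trans (hf j hv)
      refine ⟨f, ⟨mem_W_Up.2 ⟨fun τ => ?_, ?_, hf⟩, ?_⟩, hfx⟩
      · apply evalP_inj
        funext p
        rw [evalP_ren, hfx]
        exact ptvL_perm x τ p
      · rw [mem_HW_iff_HWF, hfx]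
        exact (mem_hwSpace_iff x).1 hx2
      · exact (ker_iff hcol hfx).1 hx1
    · rintro _ ⟨f, ⟨hf1, hf2⟩, rfl⟩
      obtain ⟨h1, h2, h3⟩ := mem_W_Up.1 hf1
      obtain ⟨x, hx⟩ := exists_ptvL (evalP N n f) (evalP_mem h3)
        (fun σ p => by rw [← evalP_ren, h1])
      refine ⟨x, ⟨(ker_iff (fun v hv => (hf1.2.1 v hv).2) hx.symm).2 hf2, ?_⟩, hx⟩
      refine (mem_hwSpace_iff x).2 ?_
      rw [hx]
      exact HWF_evalP h2
  have h2 : Module.finrank ℂ ((KH N a n theta).map (ptvL N a n)) =
      Module.finrank ℂ (KH N a n theta) :=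
    (LinearEquiv.finrank_eq (Submodule.equivMapOfInjective (ptvL N a n)
      (fun _ _ h => ptvL_inj h) (KH N a n theta))).symm
  have h3 : Module.finrank ℂ ((W n N a (Up n) theta ⊓ (IS n a).comap (lm n N)).map (evalP N n)) =
      Module.finrank ℂ (W n N a (Up n) theta ⊓ (IS n a).comap (lm n N) :
        Submodule ℂ (MvPolynomial (Fin n × Fin N) ℂ)) :=
    (LinearEquiv.finrank_eq (Submodule.equivMapOfInjective (evalP N n)
      (evalP_injective N n) _)).symm
  rw [← h2, h, h3]

end Vale.Agent.P181.H530.KHI
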