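import Vale.Agent.P181.H411.Seam

set_option autoImplicit false

open scoped TensorProduct

namespace Vale.Agent.P181.H530

open Vale.Agent.P181 Vale.Agent.P181.H280 Vale.Agent.P181.H54 Vale.Agent.P181.FR
  Vale.Agent.P181.T4 MvPolynomial

/-- On lines the functions of `MP` are polynomials of one variable. -/
lemma exists_line {B m a : ℕ} {G : Fn B m} (hG : G ∈ MP B m a) (p d : Fin B → Fin m → ℂ) :
    ∃ P : Polynomial ℂ, ∀ c : ℂ, P.eval c = G (fun j i => p j i + c * d j i) := by
  unfold MP at hG
  induction hG using Submodule.span_induction with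
  | mem G h =>
    obtain ⟨q, _, rfl⟩ := h
    refine ⟨∏ j, aeval (fun i => Polynomial.C (p j i) + Polynomial.X * Polynomial.C (d j i)) (q j),
      fun c => ?_⟩
    rw [Polynomial.eval_prod]
    refine Finset.prod_congr rfl fun j _ => ?_
    have h1 : Polynomial.eval c (aeval (fun i => Polynomial.C (p j i) +
        Polynomial.X * Polynomial.C (d j i)) (q j)) =
        aeval (fun i => Polynomial.eval c (Polynomial.C (p j i) +
          Polynomial.X * Polynomial.C (d j i))) (q j) := by
      have := MvPolynomial.map_aeval (fun i => Polynomial.C (p j i) +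
        Polynomial.X * Polynomial.C (d j i)) (Polynomial.evalRingHom c) (q j)
      rw [Polynomial.coe_evalRingHom] at this
      have e : (Polynomial.evalRingHom c).comp (algebraMap ℂ (Polynomial ℂ)) =
          algebraMap ℂ ℂ := RingHom.ext fun z => by simp
      rw [this, e]
      rfl
    rw [h1]
    simp only [Polynomial.eval_add, Polynomial.eval_C, Polynomial.eval_mul, Polynomial.eval_X]
    rfl
  | zero => exact ⟨0, fun c => by simp⟩
  | add G H _ _ ihG ihH =>
    obtain ⟨P, hP⟩ := ihG
    obtain ⟨Q, hQ⟩ := ihH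
    exact ⟨P + Q, fun c => by rw [Polynomial.eval_add, hP, hQ]; rfl⟩
  | smul z G _ ihG =>
    obtain ⟨P, hP⟩ := ihG
    exact ⟨Polynomial.C z * P, fun c => by
      rw [Polynomial.eval_mul, Polynomial.eval_C, hP]; rfl⟩

/-- The functions of `MP` are homogeneous. -/
lemma hom_smul {B m a : ℕ} {G : Fn B m} (hG : G ∈ MP B m a) (t : ℂ) (p : Fin B → Fin m → ℂ) :
    G (fun j i => t * p j i) = t ^ (B * a) * G p := by
  unfold MP at hG
  induction hG using Submodule.span_induction with
  | mem G h =>
    obtain ⟨q, hq, rfl⟩ := h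
    have h1 : ∀ j, eval (fun i => t * p j i) (q j) = t ^ a * eval (p j) (q j) := by
      intro j
      rw [eval_eq', eval_eq', Finset.mul_sum]
      refine Finset.sum_congr rfl fun e he => ?_
      have hd : e.degree = a := by
        rw [Finsupp.degree_eq_weight_one]
        exact hq j (mem_support_iff.1 he)
      have h2 : ∏ i, (t * p j i) ^ e i = t ^ a * ∏ i, p j i ^ e i := by
        simp only [mul_pow, Finset.prod_mul_distrib]
        congr 1
        rw [Finset.prod_pow_eq_pow_sum, ← hd, Finsupp.degree_eq_sum]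
      rw [h2]
      ring
    simp only [h1, Finset.prod_mul_distrib, Finset.prod_const, Finset.card_univ, Fintype.card_fin]
    rw [← pow_mul, mul_comm a B]
  | zero => simp
  | add G H _ _ ihG ihH => 
    rw [Pi.add_apply, Pi.add_apply, ihG, ihH, mul_add]
  | smul z G _ ihG =>
    rw [Pi.smul_apply, Pi.smul_apply, ihG, smul_eq_mul, smul_eq_mul]
    ring

/-- Functoriality of `Sym^B(Sym^a V)` and point evaluations. -/
lemma symEval_symMap' {V W : Type} [AddCommGroup V] [Module ℂ V] [AddCommGroup W] [Module ℂ W]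
    {B a : ℕ} (g : V →ₗ[ℂ] W) (ξ : Fin B → Module.Dual ℂ W) (x : Sym[ℂ]^B (Sym[ℂ]^a V)) :
    symEval (fun j => evalPow a (ξ j)) (symMap B (symMap a g) x) =
      symEval (fun j => evalPow a ((ξ j) ∘ₗ g)) x := by
  have h : (symEval (fun j => evalPow a (ξ j))) ∘ₗ (symMap B (symMap a g)) =
      (symEval (fun j => evalPow a ((ξ j) ∘ₗ g)) : (Sym[ℂ]^B (Sym[ℂ]^a V)) →ₗ[ℂ] ℂ) := by
    apply pure_hom_ext
    intro v
    rw [LinearMap.comp_apply, symMap_tprod]
    simp only [symMap_tprod, symEval_tprod, evalPow_tprod, LinearMap.comp_apply]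
  exact LinearMap.congr_fun h x

end Vale.Agent.P181.H530
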