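import Vale.Agent.P181.H530.KHI
import Vale.Agent.P181.Z.H503.S1
import Vale.Agent.P181.Z.H582.WGlue

set_option autoImplicit false

/-!
# P181, [Z]: the Pieri step in the kernel of the Foulkes-Howe map
-/

namespace Vale.Agent.P181.H530.KHI

open MvPolynomial Vale.Agent.P181 Vale.Agent.P181.H280 Vale.Agent.P181.H530.Torus
  Vale.Agent.P181.Z.H592 Vale.Agent.P181.Z463 Vale.Agent.P181.Z.H503S Vale.Agent.P181.Z.H582

/-- The Pieri step in the kernel. -/
theorem pieri_KH {n N m B a k : ℕ} {ν θ : Fin n → ℕ} {cov : Fin (m + 1) → Fin (m + 1) → A n}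
    (hC : Cov n (m + 1) B a ν cov)
    (hθ : ∀ l : Fin n, 1 ≤ (l : ℕ) → (l : ℕ) < m + 1 → ∀ i : Fin n, (i : ℕ) = m + 1 →
      θ i + k ≤ θ l) :
    Module.finrank ℂ (KH N a n θ) ≤ (k + 1) ^ (m + 1) * Module.finrank ℂ
      (KH (N + k * B) a n (fun i => θ i + k * (ν i + if (i : ℕ) = m + 1 then 1 else 0))) := by
  rw [finrank_KH_eq, finrank_KH_eq]
  exact s1 hC hθ (IS n a) (fun s i f hf => E_mem_IK s i hf)
    (fun f hf g => Ideal.mul_mem_right g (IK n a) hf)

/-- The Pieri hypothesis of the wall. -/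
theorem pieH_of_cov {n a : ℕ} {B c : ℕ → ℕ}
    (h : ∀ j, 1 ≤ j → j < n + 2 → ∃ (ν : Fin (n + 3) → ℕ)
      (cov : Fin (j + 1) → Fin (j + 1) → A (n + 3)), Cov (n + 3) (j + 1) (B j) a ν cov ∧
      (∀ i : Fin (n + 3), 1 ≤ (i : ℕ) → (i : ℕ) ≤ j + 1 → ν i = c j) ∧
      (∀ i : Fin (n + 3), j + 1 < (i : ℕ) → ν i = 0) ∧
      ν 0 + ((j + 1) * c j + 1) = a * B j) :
    ∀ j, 1 ≤ j → (hj : j < n + 2) → ∀ (k b : ℕ) (θ : Fin (n + 3) → ℕ),
      (∀ l, (hl : l + 1 < n + 2) → θ ⟨l + 2, by omega⟩ ≤ θ ⟨l + 1, by omega⟩) →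
      θ ⟨j + 1, by omega⟩ + k ≤ θ ⟨j, by omega⟩ →
      Module.finrank ℂ (KH b a (n + 3) θ) ≤ (k + 1) ^ (n + 3) * Module.finrank ℂ
        (KH (b + k * B j) a (n + 3)
          (θ + k • rho (n + 2) (c j) (a * B j - ((j + 1) * c j + 1)) j)) := by
  intro j hj1 hj k b θ hanti hk
  obtain ⟨ν, cov, hC, hν1, hν2, hν0⟩ := h j hj1 hj
  have hmono : ∀ d l : ℕ, (hl : l + 1 + d < n + 3) → θ ⟨l + 1 + d, hl⟩ ≤ θ ⟨l + 1, by omega⟩ := by
    intro d
    induction d with
    | zero => intro l hl; exact le_rfl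
    | succ d ih =>
      intro l hl
      have h1 := hanti (l + d) (by omega)
      have h2 := ih l (by omega)
      have e1 : θ ⟨l + 1 + (d + 1), hl⟩ = θ ⟨l + d + 2, by omega⟩ := by
        congr 1
        apply Fin.ext
        dsimp only
        omega
      have e2 : θ ⟨l + 1 + d, by omega⟩ = θ ⟨l + d + 1, by omega⟩ := by
        congr 1
        apply Fin.ext
        dsimp only
        omega
      omega
  have hθ : ∀ l : Fin (n + 3), 1 ≤ (l : ℕ) → (l : ℕ) < j + 1 → ∀ i : Fin (n + 3),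
      (i : ℕ) = j + 1 → θ i + k ≤ θ l := by
    intro l hl1 hl2 i hi
    have h1 : i = ⟨j + 1, by omega⟩ := Fin.ext hi
    have h2 := hmono (j - l) ((l : ℕ) - 1) (by omega)
    have e1 : θ ⟨(l : ℕ) - 1 + 1 + (j - l), by omega⟩ = θ ⟨j, by omega⟩ := by
      congr 1
      apply Fin.ext
      dsimp only
      omega
    have e2 : θ ⟨(l : ℕ) - 1 + 1, by omega⟩ = θ l := by
      congr 1
      apply Fin.ext
      dsimp only
      omega
    rw [e1, e2] at h2
    rw [h1]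
    omega
  have h1 := pieri_KH (N := b) hC hθ
  have h2 : (fun i : Fin (n + 3) => θ i + k * (ν i + if (i : ℕ) = j + 1 then 1 else 0)) =
      θ + k • rho (n + 2) (c j) (a * B j - ((j + 1) * c j + 1)) j := by
    funext i
    rw [Pi.add_apply, Pi.smul_apply, smul_eq_mul, rho]
    congr 2
    by_cases hi0 : (i : ℕ) = 0
    · have hi : i = 0 := Fin.ext hi0
      subst hi
      rw [if_neg (by simp), if_pos hi0]
      omega
    · rw [if_neg hi0]
      by_cases hi1 : (i : ℕ) ≤ j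
      · rw [if_neg (by omega), if_pos hi1, hν1 i (by omega) (by omega)]
        rfl
      · rw [if_neg hi1]
        by_cases hi2 : (i : ℕ) = j + 1
        · rw [if_pos hi2, if_pos hi2, hν1 i (by omega) (by omega)]
        · rw [if_neg hi2, if_neg hi2, hν2 i (by omega)]
  rw [h2] at h1
  refine h1.trans (Nat.mul_le_mul_right _ ?_)
  exact Nat.pow_le_pow_right (by omega) (by omega)

end Vale.Agent.P181.H530.KHI
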