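import Vale.Agent.P181.H530.PieH
import Vale.Agent.P181.Z.H592.CovOf
import Vale.Agent.P181.Z.H582.Wall

set_option autoImplicit false

/-!
# P181, [Z]: the Pieri hypothesis from highest weight vectors
-/

namespace Vale.Agent.P181.H530.KHI

open MvPolynomial Vale.Agent.P181 Vale.Agent.P181.H280 Vale.Agent.P181.H530.Torus
  Vale.Agent.P181.Z.H592 Vale.Agent.P181.Z463 Vale.Agent.P181.Z.H503S Vale.Agent.P181.Z.H582

/-- The covariants of the rows `1, …, d`. -/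
def CovStmt (n d : ℕ) (hd : d < n) (B c a : ℕ) : Prop :=
  ∃ (nu : Fin n → ℕ) (l : Fin d → A n), (∀ r, l r ∈ HA n B a nu) ∧
    (∀ h : 1 < n, nu ⟨1, h⟩ = c + 1) ∧ (∀ j : Fin n, 2 ≤ (j : ℕ) → (j : ℕ) ≤ d → nu j = c) ∧
    (∀ j : Fin n, d < (j : ℕ) → nu j = 0) ∧
    Matrix.det (Matrix.of fun r j : Fin d => cov hd (l r) j) ≠ 0

lemma sum_fin_ite {n j : ℕ} (hj : j < n) :
    ∑ i : Fin n, (if (i : ℕ) = j then 1 else 0) = 1 := by
  rw [Finset.sum_eq_single (⟨j, hj⟩ : Fin n)]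
  · exact if_pos rfl
  · intro i _ hi
    exact if_neg (fun h => hi (Fin.ext h))
  · intro h
    exact absurd (Finset.mem_univ _) h

lemma degree_of_covStmt {n j B c a : ℕ} (hj1 : 1 ≤ j) (hj : j + 1 < n + 3) {nu : Fin (n + 3) → ℕ}
    {l : Fin (j + 1) → A (n + 3)} (hl : ∀ r, l r ∈ HA (n + 3) B a nu)
    (h1 : ∀ h : 1 < n + 3, nu ⟨1, h⟩ = c + 1)
    (h2 : ∀ i : Fin (n + 3), 2 ≤ (i : ℕ) → (i : ℕ) ≤ j + 1 → nu i = c)
    (h3 : ∀ i : Fin (n + 3), j + 1 < (i : ℕ) → nu i = 0)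
    (hdet : Matrix.det (Matrix.of fun r i : Fin (j + 1) => cov hj (l r) i) ≠ 0) :
    nu 0 + ((j + 1) * c + 1) = a * B := by
  classical
  have hne : l 0 ≠ 0 := by
    intro h0
    apply hdet
    apply Matrix.det_eq_zero_of_row_eq_zero 0
    intro i
    rw [Matrix.of_apply, h0, cov]
    split_ifs
    · rfl
    · exact map_zero _
  obtain ⟨d, hd⟩ := MvPolynomial.ne_zero_iff.1 hne
  have htot := MS_total ((mem_HA.1 (hl 0)).1 d hd)
  have hpt : ∀ i : Fin (n + 3), nu i + (if (i : ℕ) = j + 1 then 1 else 0) =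
      rho (n + 2) c (nu 0) j i + (if (i : ℕ) = 1 then 1 else 0) := by
    intro i
    rw [rho]
    by_cases hi0 : (i : ℕ) = 0
    · have hi : i = 0 := Fin.ext hi0
      subst hi
      simp
    · by_cases hi1 : (i : ℕ) = 1
      · have hi : i = ⟨1, by omega⟩ := Fin.ext hi1
        rw [hi, h1]
        simp only [one_ne_zero, if_false, if_true]
        rw [if_neg (by omega), if_pos (by omega)]
      · rw [if_neg hi0, if_neg hi1, add_zero]
        by_cases hi2 : (i : ℕ) ≤ j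
        · rw [if_pos hi2, if_neg (by omega), add_zero, h2 i (by omega) (by omega)]
        · rw [if_neg hi2]
          by_cases hi3 : (i : ℕ) = j + 1
          · rw [if_pos hi3, if_pos hi3, h2 i (by omega) (by omega)]
          · rw [if_neg hi3, if_neg hi3, add_zero, h3 i (by omega)]
  have hs := Finset.sum_congr rfl (fun i (_ : i ∈ Finset.univ) => hpt i)
  rw [Finset.sum_add_distrib, Finset.sum_add_distrib, sum_fin_ite hj, sum_fin_ite (by omega),
    htot, sum_rho c (nu 0) j (by omega)] at hs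
  have hs' := Nat.add_right_cancel hs
  rw [← hs', mul_comm]

theorem pieH_of_covStmt {n a : ℕ} {B c : ℕ → ℕ}
    (h : ∀ j, 1 ≤ j → (hj : j + 1 < n + 3) → CovStmt (n + 3) (j + 1) hj (B j) (c j) a) :
    PieH n a B c ∧ ∀ j, 1 ≤ j → j < n + 2 → (j + 1) * c j + 1 ≤ a * B j := by
  constructor
  · refine pieH_of_cov fun j hj1 hj2 => ?_
    obtain ⟨nu, l, hl, h1, h2, h3, hdet⟩ := h j hj1 (by omega)
    refine ⟨_, _, cov_of_hw (by omega) l hl h1 h2 hdet, ?_, ?_, ?_⟩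
    · intro i hi hi'
      by_cases hi1 : (i : ℕ) = 1
      · have h6 : i = ⟨1, by omega⟩ := Fin.ext hi1
        rw [if_pos hi1, h6, h1, Nat.add_sub_cancel]
      · rw [if_neg hi1, Nat.sub_zero]
        exact h2 i (by omega) hi'
    · intro i hi
      rw [h3 i hi, Nat.zero_sub]
    · rw [if_neg (by simp), Nat.sub_zero]
      exact degree_of_covStmt hj1 (by omega) hl h1 h2 h3 hdet
  · intro j hj1 hj2
    obtain ⟨nu, l, hl, h1, h2, h3, hdet⟩ := h j hj1 (by omega)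
    have := degree_of_covStmt hj1 (by omega) hl h1 h2 h3 hdet
    omega

/-- **The Pieri hypothesis**, from the covariants. -/
theorem exists_pieH
    (hcov : ∀ n d : ℕ, 1 ≤ d → (hd : d < n) → ∃ B c a1 : ℕ, ∀ a, a1 ≤ a → CovStmt n d hd B c a)
    (n : ℕ) : ∃ (B c : ℕ → ℕ) (a1 : ℕ), ∀ a, a1 ≤ a →
      PieH n a B c ∧ ∀ j < n + 2, (j + 1) * c j + 1 ≤ a * B j := by
  classical
  have key : ∀ j : ℕ, ∃ B c a1 : ℕ, 1 ≤ a1 ∧ (1 ≤ j → ∀ hj : j + 1 < n + 3, ∀ a, a1 ≤ a →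
      CovStmt (n + 3) (j + 1) hj B c a) ∧ (j = 0 → B = 1 ∧ c = 0) := by
    intro j
    by_cases hj : 1 ≤ j ∧ j + 1 < n + 3
    · obtain ⟨B, c, a1, h⟩ := hcov (n + 3) (j + 1) (by omega) hj.2
      refine ⟨B, c, a1 + 1, by omega, fun _ _ a ha => h a (by omega), fun h0 => by omega⟩
    · refine ⟨1, 0, 1, le_rfl, fun h1 h2 => absurd ⟨h1, h2⟩ hj, fun _ => ⟨rfl, rfl⟩⟩
  choose B c a1 ha1 hc h0 using key
  refine ⟨B, c, ∑ j ∈ Finset.range (n + 2), a1 j, fun a ha => ?_⟩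
  have hle : ∀ j < n + 2, a1 j ≤ a := fun j hj =>
    (Finset.single_le_sum (f := a1) (fun _ _ => Nat.zero_le _) (Finset.mem_range.2 hj)).trans ha
  obtain ⟨h1, h2⟩ := pieH_of_covStmt (a := a) (B := B) (c := c)
    (fun j hj1 hj => hc j hj1 hj a (hle j (by omega)))
  refine ⟨h1, fun j hj => ?_⟩
  rcases Nat.eq_zero_or_pos j with rfl | hj1
  · obtain ⟨e1, e2⟩ := h0 0 rfl
    rw [e1, e2]
    have := ha1 0
    have := hle 0 (by omega)
    omega
  · exact h2 j hj1 hj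

end Vale.Agent.P181.H530.KHI
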