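import Vale.Agent.P181.H412.Final7
import Vale.Agent.P181.H699.CaseIFin
import Vale.Agent.P181.H530.Inj

set_option autoImplicit false

open Vale.Agent.P181 Vale.Agent.P181.H280

universe u

namespace Vale.Agent.P181.H530

/-- **Foulkes' conjecture for `b ≥ a ^ (3/2 + ε)`, `a` large, in its literal form.** -/
theorem foulkes_three_halves (ε : ℝ) (hε : 0 < ε) :
    ∃ a₀ : ℕ, ∀ a : ℕ, a₀ ≤ a → ∀ b : ℕ, (a : ℝ) ^ (3 / 2 + ε : ℝ) ≤ b →
      FoulkesInjection.{u} a b := by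
  obtain ⟨a₀, h⟩ := T7.result7 H699.fStmt H530.pad_stmt H530.zero_stmt ε hε
  exact ⟨a₀, fun a ha b hb => foulkesInjection_of_mult fun n lam => h a ha b n lam (Or.inl hb)⟩

end Vale.Agent.P181.H530
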