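import Vale.Agent.P181.H411.Seam4
import Vale.Agent.P181.H583.Upper

set_option autoImplicit false

/-!
# P181, [Z]: weight spaces and highest weight vectors of `Sym^N(Sym^a ℂ^n)`
-/

namespace Vale.Agent.P181.H530.Torus

open MvPolynomial Vale.Agent.P181 Vale.Agent.P181.H280 Vale.Agent.P181.FR Vale.Agent.P181.T4

variable {n N : ℕ}

/-- moving one variable -/
lemma exists_of_coeff_rowOp {s i : Fin n} {f : MvPolynomial (Fin n × Fin N) ℂ}
    {v : Fin n × Fin N →₀ ℕ} (hv : coeff v (rowOp s i f) ≠ 0) :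
    ∃ (j : Fin N) (d : Fin n × Fin N →₀ ℕ), coeff d f ≠ 0 ∧ d (i, j) ≠ 0 ∧
      v + Finsupp.single (i, j) 1 = d + Finsupp.single (s, j) 1 := by
  classical
  rw [rowOp_apply, coeff_sum] at hv
  obtain ⟨j, -, hj⟩ := Finset.exists_ne_zero_of_sum_ne_zero hv
  rw [coeff_X_mul'] at hj
  split_ifs at hj with h1
  · rw [coeff_pderiv] at hj
    refine ⟨j, v - Finsupp.single (s, j) 1 + Finsupp.single (i, j) 1, left_ne_zero_of_mul hj, ?_, ?_⟩
    · rw [Finsupp.add_apply, Finsupp.single_eq_same]
      omega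
    · have h2 : v - Finsupp.single (s, j) 1 + Finsupp.single (s, j) 1 = v := by
        apply tsub_add_cancel_of_le
        rw [Finsupp.single_le_iff]
        exact Nat.one_le_iff_ne_zero.2 (Finsupp.mem_support_iff.1 h1)
      calc v + Finsupp.single (i, j) 1
          = v - Finsupp.single (s, j) 1 + Finsupp.single (s, j) 1 + Finsupp.single (i, j) 1 := by
            rw [h2]
        _ = _ := add_right_comm _ _ _
  · exact absurd rfl hj

/-- The renaming of the columns. -/
noncomputable def ren (n : ℕ) {N : ℕ} (τ : Equiv.Perm (Fin N)) :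
    MvPolynomial (Fin n × Fin N) ℂ →ₐ[ℂ] MvPolynomial (Fin n × Fin N) ℂ :=
  rename (fun ij : Fin n × Fin N => (ij.1, τ ij.2))

lemma ren_rowOp (τ : Equiv.Perm (Fin N)) (s i : Fin n) (f : MvPolynomial (Fin n × Fin N) ℂ) :
    ren n τ (rowOp s i f) = rowOp s i (ren n τ f) := by
  induction f using MvPolynomial.induction_on with
  | C c =>
    rw [T4.rowOp_C, ren, map_zero, algHom_C]
    exact (T4.rowOp_C s i c).symm
  | add p q hp hq => rw [map_add, map_add, hp, hq, map_add, map_add]
  | mul_X p x hp =>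
    rw [T4.rowOp_mul, map_add, map_mul, map_mul, hp, map_mul, T4.rowOp_mul, T4.rowOp_X]
    congr 2
    rw [ren, rename_X, T4.rowOp_X]
    split_ifs
    · rw [rename_X]
    · rw [map_zero]

/-- the commutator of two row operators -/
lemma rowOp_comm (s i t k : Fin n) (f : MvPolynomial (Fin n × Fin N) ℂ) :
    rowOp s i (rowOp t k f) = rowOp t k (rowOp s i f) + (if i = t then rowOp s k f else 0) -
      (if k = s then rowOp t i f else 0) := by
  induction f using MvPolynomial.induction_on with
  | C c => simp only [T4.rowOp_C, map_zero, ite_self, add_zero, sub_zero]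
  | add p q hp hq =>
    simp only [map_add, hp, hq]
    split_ifs <;> ring
  | mul_X p x hp =>
    simp only [T4.rowOp_mul, map_add, hp]
    have hX : rowOp s i (rowOp t k (X x : MvPolynomial (Fin n × Fin N) ℂ)) =
        rowOp t k (rowOp s i (X x)) + (if i = t then rowOp s k (X x) else 0) -
        (if k = s then rowOp t i (X x) else 0) := by
      simp only [T4.rowOp_X]
      by_cases h1 : x.1 = k <;> by_cases h2 : x.1 = i <;> by_cases h3 : i = t <;>
        by_cases h4 : k = s <;> simp_all [T4.rowOp_X, eq_comm]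
    rw [hX]
    split_ifs <;> ring

/-- The symmetric polynomials of degree `a` in each column with row degrees `mu` which are killed
by the row operators of the pairs in `P`. -/
noncomputable def W (n N a : ℕ) (P : Finset (Fin n × Fin n)) (mu : Fin n → ℕ) :
    Submodule ℂ (MvPolynomial (Fin n × Fin N) ℂ) where
  carrier := {f | (∀ τ : Equiv.Perm (Fin N), ren n τ f = f) ∧
    (∀ v : Fin n × Fin N →₀ ℕ, coeff v f ≠ 0 → (∀ i, ∑ j, v (i, j) = mu i) ∧
      ∀ j, ∑ i, v (i, j) = a) ∧ ∀ q ∈ P, rowOp q.1 q.2 f = 0}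
  zero_mem' := ⟨fun τ => map_zero _, fun v hv => absurd (coeff_zero v) hv, fun q _ => map_zero _⟩
  add_mem' := by
    rintro f g ⟨h1, h2, h3⟩ ⟨h4, h5, h6⟩
    refine ⟨fun τ => by rw [map_add, h1, h4], fun v hv => ?_, fun q hq => by
      rw [map_add, h3 q hq, h6 q hq, add_zero]⟩
    rw [coeff_add] at hv
    by_cases h : coeff v f = 0
    · rw [h, zero_add] at hv
      exact h5 v hv
    · exact h2 v h
  smul_mem' := by
    rintro c f ⟨h1, h2, h3⟩
    refine ⟨fun τ => by rw [map_smul, h1], fun v hv => ?_, fun q hq => by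
      rw [map_smul, h3 q hq, smul_zero]⟩
    rw [coeff_smul, smul_eq_mul] at hv
    exact h2 v (right_ne_zero_of_mul hv)

lemma mem_W {a : ℕ} {P : Finset (Fin n × Fin n)} {mu : Fin n → ℕ}
    {f : MvPolynomial (Fin n × Fin N) ℂ} : f ∈ W n N a P mu ↔
      (∀ τ : Equiv.Perm (Fin N), ren n τ f = f) ∧
    (∀ v : Fin n × Fin N →₀ ℕ, coeff v f ≠ 0 → (∀ i, ∑ j, v (i, j) = mu i) ∧
      ∀ j, ∑ i, v (i, j) = a) ∧ ∀ q ∈ P, rowOp q.1 q.2 f = 0 := Iff.rfl

lemma W_le_ColS {a : ℕ} {P : Finset (Fin n × Fin n)} {mu : Fin n → ℕ} :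
    W n N a P mu ≤ ColS n N a := by
  intro f hf
  rw [mem_ColS]
  intro j v hv
  rw [weight_colW]
  exact (hf.2.1 v hv).2 j

instance {a : ℕ} {P : Finset (Fin n × Fin n)} {mu : Fin n → ℕ} :
    Module.Finite ℂ (W n N a P mu) :=
  Submodule.finiteDimensional_of_le W_le_ColS

/-- moving `k` units from `i` to `s` -/
def mv (mu : Fin n → ℕ) (s i : Fin n) (k : ℕ) : Fin n → ℕ :=
  fun r => if r = s then mu r + k else if r = i then mu r - k else mu r

/-- one step of a row operator -/
lemma rowOp_W {a : ℕ} {P : Finset (Fin n × Fin n)} {mu : Fin n → ℕ} {s i : Fin n} (hsi : s < i)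
    (hP1 : ∀ t, (t, s) ∈ P → (t, i) ∈ P) (hP2 : ∀ k, (i, k) ∈ P → (s, k) ∈ P)
    (hmu : 1 ≤ mu i) {f : MvPolynomial (Fin n × Fin N) ℂ} (hf : f ∈ W n N a P mu) :
    rowOp s i f ∈ W n N a P (mv mu s i 1) := by
  classical
  obtain ⟨h1, h2, h3⟩ := hf
  refine ⟨fun τ => by rw [ren_rowOp, h1], fun v hv => ?_, fun q hq => ?_⟩
  · obtain ⟨j, d, hd, hdj, he⟩ := exists_of_coeff_rowOp hv
    obtain ⟨h4, h5⟩ := h2 d hd
    have he' : ∀ p : Fin n × Fin N, v p + (if (i, j) = p then 1 else 0) =
        d p + (if (s, j) = p then 1 else 0) := by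
      intro p
      have := DFunLike.congr_fun he p
      simpa only [Finsupp.add_apply, Finsupp.single_apply] using this
    constructor
    · intro r
      have h6 : ∑ j', v (r, j') + (if i = r then 1 else 0) =
          ∑ j', d (r, j') + (if s = r then 1 else 0) := by
        have h7 := Finset.sum_congr rfl (fun j' (_ : j' ∈ Finset.univ) => he' (r, j'))
        rw [Finset.sum_add_distrib, Finset.sum_add_distrib] at h7
        have h8 : ∀ x : Fin n, ∑ j' : Fin N, (if (x, j) = (r, j') then 1 else 0) =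
            if x = r then 1 else 0 := by
          intro x
          rw [Finset.sum_eq_single j]
          · simp only [Prod.mk.injEq, and_true]
          · intro j' _ hj'
            rw [if_neg (fun h => hj' (Prod.mk.inj h).2.symm)]
          · intro h
            exact absurd (Finset.mem_univ _) h
        rwa [h8, h8] at h7
      rw [h4 r] at h6
      unfold mv
      by_cases hr : r = s
      · subst hr
        rw [if_pos rfl] at h6 ⊢
        rw [if_neg hsi.ne'] at h6
        exact h6
      · rw [if_neg hr]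
        rw [if_neg (Ne.symm hr)] at h6
        by_cases hr2 : r = i
        · subst hr2
          rw [if_pos rfl] at h6 ⊢
          omega
        · rw [if_neg hr2]
          rw [if_neg (Ne.symm hr2)] at h6
          exact h6
    · intro j'
      have h7 := Finset.sum_congr rfl (fun r (_ : r ∈ Finset.univ) => he' (r, j'))
      rw [Finset.sum_add_distrib, Finset.sum_add_distrib, h5 j'] at h7
      have h8 : ∀ x : Fin n, ∑ r : Fin n, (if (x, j) = (r, j') then 1 else 0) =
          if j = j' then 1 else 0 := by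
        intro x
        rw [Finset.sum_eq_single x]
        · simp only [Prod.mk.injEq, true_and]
        · intro r _ hr
          rw [if_neg (fun h => hr (Prod.mk.inj h).1.symm)]
        · intro h
          exact absurd (Finset.mem_univ _) h
      rw [h8, h8] at h7
      exact add_right_cancel h7
  · rw [rowOp_comm, h3 q hq, map_zero, zero_add]
    have h4 : (if q.2 = s then rowOp q.1 i f else 0) = 0 := by
      split_ifs with h
      · exact h3 (q.1, i) (hP1 q.1 (by rw [← h]; exact hq))
      · rfl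
    have h5 : (if i = q.1 then rowOp s q.2 f else 0) = 0 := by
      split_ifs with h
      · exact h3 (s, q.2) (hP2 q.2 (by rw [h]; exact hq))
      · rfl
    rw [h4, h5, sub_zero]

lemma rowOp_W_zero {a : ℕ} {P : Finset (Fin n × Fin n)} {mu : Fin n → ℕ} {s i : Fin n}
    (hmu : mu i = 0) {f : MvPolynomial (Fin n × Fin N) ℂ} (hf : f ∈ W n N a P mu) :
    rowOp s i f = 0 := by
  classical
  by_contra h
  obtain ⟨v, hv⟩ := MvPolynomial.ne_zero_iff.1 h
  obtain ⟨j, d, hd, hdj, he⟩ := exists_of_coeff_rowOp hv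
  have h4 := (hf.2.1 d hd).1 i
  rw [hmu, Finset.sum_eq_zero_iff] at h4
  exact hdj (h4 j (Finset.mem_univ _))

lemma mv_zero (mu : Fin n → ℕ) (s i : Fin n) : mv mu s i 0 = mu := by
  funext r
  unfold mv
  split_ifs <;> rfl

lemma mv_mv (mu : Fin n → ℕ) {s i : Fin n} (h : s ≠ i) (k : ℕ) :
    mv (mv mu s i k) s i 1 = mv mu s i (k + 1) := by
  funext r
  unfold mv
  by_cases h1 : r = s
  · rw [if_pos h1, if_pos h1, if_pos h1, add_assoc]
  · rw [if_neg h1, if_neg h1, if_neg h1]
    by_cases h2 : r = i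
    · rw [if_pos h2, if_pos h2, if_pos h2, Nat.sub_sub]
    · rw [if_neg h2, if_neg h2, if_neg h2]

lemma mv_i (mu : Fin n → ℕ) {s i : Fin n} (h : s ≠ i) (k : ℕ) : mv mu s i k i = mu i - k := by
  unfold mv
  rw [if_neg h.symm, if_pos rfl]

lemma rowOp_pow_W {a : ℕ} {P : Finset (Fin n × Fin n)} {mu : Fin n → ℕ} {s i : Fin n} (hsi : s < i)
    (hP1 : ∀ t, (t, s) ∈ P → (t, i) ∈ P) (hP2 : ∀ k, (i, k) ∈ P → (s, k) ∈ P) {k : ℕ}
    (hk : k ≤ mu i) {f : MvPolynomial (Fin n × Fin N) ℂ} (hf : f ∈ W n N a P mu) :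
    ((rowOp s i : MvPolynomial (Fin n × Fin N) ℂ →ₗ[ℂ] MvPolynomial (Fin n × Fin N) ℂ) ^ k) f ∈
      W n N a P (mv mu s i k) := by
  induction k with
  | zero => rwa [pow_zero, mv_zero]
  | succ k ih =>
    have h1 := rowOp_W hsi hP1 hP2 (by rw [mv_i _ hsi.ne]; omega) (ih (by omega))
    rw [mv_mv _ hsi.ne] at h1
    rw [pow_succ']
    exact h1

lemma rowOp_pow_W_zero {a : ℕ} {P : Finset (Fin n × Fin n)} {mu : Fin n → ℕ} {s i : Fin n}
    (hsi : s < i) (hP1 : ∀ t, (t, s) ∈ P → (t, i) ∈ P) (hP2 : ∀ k, (i, k) ∈ P → (s, k) ∈ P)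
    {f : MvPolynomial (Fin n × Fin N) ℂ} (hf : f ∈ W n N a P mu) :
    ((rowOp s i : MvPolynomial (Fin n × Fin N) ℂ →ₗ[ℂ] MvPolynomial (Fin n × Fin N) ℂ) ^
      (mu i + 1)) f = 0 := by
  rw [pow_succ']
  exact rowOp_W_zero (by rw [mv_i _ hsi.ne]; omega) (rowOp_pow_W hsi hP1 hP2 le_rfl hf)

/-- Dimension count along the powers of an operator. -/
lemma finrank_step {M : Type*} [AddCommGroup M] [Module ℂ M] (E : M →ₗ[ℂ] M)
    (V : Submodule ℂ M) [Module.Finite ℂ V] (U : ℕ → Submodule ℂ M) (K : ℕ)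
    (hfin : ∀ k ≤ K, Module.Finite ℂ (U k))
    (hU : ∀ k ≤ K, ∀ x ∈ V, (E ^ (k + 1)) x = 0 → (E ^ k) x ∈ U k)
    (hK : ∀ x ∈ V, (E ^ (K + 1)) x = 0) :
    Module.finrank ℂ V ≤ ∑ k ∈ Finset.range (K + 1), Module.finrank ℂ (U k) := by
  have key : ∀ m, m ≤ K + 1 → Module.finrank ℂ (V ⊓ LinearMap.ker (E ^ m) : Submodule ℂ M) ≤
      ∑ k ∈ Finset.range m, Module.finrank ℂ (U k) := by
    intro m
    induction m with
    | zero =>
      intro _
      have h1 : (V ⊓ LinearMap.ker (E ^ 0) : Submodule ℂ M) = ⊥ := by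
        rw [pow_zero, eq_bot_iff]
        rintro x ⟨-, hx⟩
        exact hx
      rw [h1, finrank_bot]
      exact Nat.zero_le _
    | succ m ih =>
      intro hm
      have := hfin m (by omega)
      set A : Submodule ℂ M := V ⊓ LinearMap.ker (E ^ (m + 1)) with hA
      have hAf : Module.Finite ℂ A := Submodule.finiteDimensional_of_le (S₂ := V) inf_le_left
      let g : A →ₗ[ℂ] U m := ((E ^ m).domRestrict A).codRestrict (U m)
        (fun x => hU m (by omega) x x.2.1 x.2.2)
      have h1 := LinearMap.finrank_range_add_finrank_ker g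
      have h2 : Module.finrank ℂ (LinearMap.range g) ≤ Module.finrank ℂ (U m) :=
        Submodule.finrank_le _
      have h3 : Module.finrank ℂ (LinearMap.ker g) ≤
          Module.finrank ℂ (V ⊓ LinearMap.ker (E ^ m) : Submodule ℂ M) := by
        have h4 : Module.finrank ℂ ((LinearMap.ker g).map A.subtype) =
            Module.finrank ℂ (LinearMap.ker g) :=
          LinearEquiv.finrank_eq (Submodule.equivMapOfInjective A.subtype
            A.injective_subtype (LinearMap.ker g)).symm
        rw [← h4]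
        have : Module.Finite ℂ (V ⊓ LinearMap.ker (E ^ m) : Submodule ℂ M) :=
          Submodule.finiteDimensional_of_le (S₂ := V) inf_le_left
        apply Submodule.finrank_mono
        rintro _ ⟨x, hx, rfl⟩
        refine ⟨x.2.1, ?_⟩
        exact congrArg Subtype.val hx
      rw [Finset.sum_range_succ]
      have h5 := ih (by omega)
      omega
  have h1 := key (K + 1) le_rfl
  have h2 : (V ⊓ LinearMap.ker (E ^ (K + 1)) : Submodule ℂ M) = V := by
    rw [inf_eq_left]
    intro x hx
    exact hK x hx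
  rwa [h2] at h1

/-- pigeonhole -/
lemma exists_le_mul {K d : ℕ} (u : ℕ → ℕ) (h : d ≤ ∑ k ∈ Finset.range (K + 1), u k) :
    ∃ k, k ≤ K ∧ d ≤ (K + 1) * u k := by
  obtain ⟨k, hk, hmax⟩ := Finset.exists_max_image (Finset.range (K + 1)) u
    ⟨0, Finset.mem_range.2 (Nat.succ_pos K)⟩
  refine ⟨k, by have := Finset.mem_range.1 hk; omega, h.trans ?_⟩
  have h1 := Finset.sum_le_card_nsmul (Finset.range (K + 1)) u (u k) hmax
  rwa [Finset.card_range, smul_eq_mul] at h1

/-- `theta` dominates `mu`. -/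
def Dom (theta mu : Fin n → ℕ) : Prop :=
  ∑ x, theta x = ∑ x, mu x ∧
    ∀ r : ℕ, ∑ x ∈ Finset.univ.filter (fun x : Fin n => r ≤ (x : ℕ)), theta x ≤
      ∑ x ∈ Finset.univ.filter (fun x : Fin n => r ≤ (x : ℕ)), mu x

lemma Dom.refl (mu : Fin n → ℕ) : Dom mu mu := ⟨rfl, fun _ => le_rfl⟩

lemma Dom.trans {x y z : Fin n → ℕ} (h : Dom x y) (h' : Dom y z) : Dom x z :=
  ⟨h.1.trans h'.1, fun r => (h.2 r).trans (h'.2 r)⟩

lemma dom_mv (mu : Fin n → ℕ) {s i : Fin n} (hsi : s < i) {k : ℕ} (hk : k ≤ mu i) :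
    Dom (mv mu s i k) mu := by
  classical
  have h1 : ∀ x, mv mu s i k x + (if x = i then k else 0) = mu x + (if x = s then k else 0) := by
    intro x
    unfold mv
    by_cases h1 : x = s
    · rw [if_pos h1, if_pos h1, if_neg (by rw [h1]; exact hsi.ne), add_zero]
    · rw [if_neg h1, if_neg h1]
      by_cases h2 : x = i
      · rw [if_pos h2, if_pos h2, h2]; omega
      · rw [if_neg h2, if_neg h2]
  constructor
  · have h2 := Finset.sum_congr rfl (fun x (_ : x ∈ Finset.univ) => h1 x)
    rw [Finset.sum_add_distrib, Finset.sum_add_distrib, Finset.sum_ite_eq' Finset.univ i,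
      Finset.sum_ite_eq' Finset.univ s, if_pos (Finset.mem_univ _), if_pos (Finset.mem_univ _)] at h2
    exact add_right_cancel h2
  · intro r
    have h2 := Finset.sum_congr rfl
      (fun x (_ : x ∈ Finset.univ.filter (fun x : Fin n => r ≤ (x : ℕ))) => h1 x)
    rw [Finset.sum_add_distrib, Finset.sum_add_distrib, Finset.sum_ite_eq' _ i,
      Finset.sum_ite_eq' _ s] at h2
    simp only [Finset.mem_filter, Finset.mem_univ, true_and] at h2
    have h3 : (s : ℕ) < i := hsi
    split_ifs at h2 <;> omega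

/-- The pairs above the diagonal. -/
def Up (n : ℕ) : Finset (Fin n × Fin n) := Finset.univ.filter (fun q => q.1 < q.2)

lemma mem_Up {q : Fin n × Fin n} : q ∈ Up n ↔ q.1 < q.2 := by
  simp [Up]

theorem exists_theta {a D : ℕ} : ∀ (m : ℕ) (P : Finset (Fin n × Fin n)) (mu : Fin n → ℕ),
    (Up n \ P).card ≤ m → (∀ q ∈ P, ∀ q' : Fin n × Fin n, q'.1 ≤ q.1 → q.2 ≤ q'.2 → q' ∈ P) →
    ∑ x, mu x ≤ D →
    ∃ theta : Fin n → ℕ, Dom theta mu ∧
      Module.finrank ℂ (W n N a P mu) ≤ (D + 1) ^ m * Module.finrank ℂ (W n N a (Up n) theta) := by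
  classical
  intro m
  induction m with
  | zero =>
    intro P mu hm _ _
    refine ⟨mu, Dom.refl mu, ?_⟩
    rw [pow_zero, one_mul]
    apply Submodule.finrank_mono
    intro f hf
    refine ⟨hf.1, hf.2.1, fun q hq => hf.2.2 q ?_⟩
    rw [Nat.le_zero, Finset.card_eq_zero, Finset.sdiff_eq_empty_iff_subset] at hm
    exact hm hq
  | succ m ih =>
    intro P mu hm hP hD
    by_cases hsub : Up n ⊆ P
    · refine ⟨mu, Dom.refl mu, ?_⟩
      have h1 : Module.finrank ℂ (W n N a P mu) ≤ Module.finrank ℂ (W n N a (Up n) mu) := by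
        apply Submodule.finrank_mono
        intro f hf
        exact ⟨hf.1, hf.2.1, fun q hq => hf.2.2 q (hsub hq)⟩
      exact h1.trans (Nat.le_mul_of_pos_left _ (by positivity))
    · have hne : (Up n \ P).Nonempty := by
        rw [Finset.nonempty_iff_ne_empty, Ne, Finset.sdiff_eq_empty_iff_subset]
        exact hsub
      obtain ⟨⟨s, i⟩, hq, hmax⟩ := Finset.exists_max_image (Up n \ P)
        (fun q => (q.2 : ℕ) - q.1) hne
      rw [Finset.mem_sdiff, mem_Up] at hq
      obtain ⟨hsi, hnot⟩ := hq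
      dsimp only at hsi
      have hP1 : ∀ t, (t, s) ∈ P → (t, i) ∈ P := fun t ht => hP _ ht (t, i) le_rfl hsi.le
      have hP2 : ∀ k, (i, k) ∈ P → (s, k) ∈ P := fun k hk => hP _ hk (s, k) hsi.le le_rfl
      have hcl : ∀ q ∈ insert (s, i) P, ∀ q' : Fin n × Fin n, q'.1 ≤ q.1 → q.2 ≤ q'.2 →
          q' ∈ insert (s, i) P := by
        intro q hq q' h1 h2
        rw [Finset.mem_insert] at hq ⊢
        rcases hq with rfl | hq
        · by_cases h3 : q' = (s, i)
          · exact Or.inl h3
          · right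
            by_contra h4
            have h5 : q' ∈ Up n \ P := by
              rw [Finset.mem_sdiff, mem_Up]
              exact ⟨lt_of_le_of_lt h1 (lt_of_lt_of_le hsi h2), h4⟩
            have h6 := hmax q' h5
            dsimp only at h6 h1 h2
            have h7 : (s : ℕ) < i := hsi
            have h8 : (q'.1 : ℕ) ≤ s := h1
            have h9 : (i : ℕ) ≤ q'.2 := h2
            apply h3
            apply Prod.ext
            · apply Fin.ext
              show (q'.1 : ℕ) = s
              omega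
            · apply Fin.ext
              show (q'.2 : ℕ) = i
              omega
        · exact Or.inr (hP q hq q' h1 h2)
      have h1 := finrank_step (rowOp s i) (W n N a P mu)
        (fun k => W n N a (insert (s, i) P) (mv mu s i k)) (mu i)
        (fun k _ => inferInstance)
        (by
          intro k hk x hx h0
          obtain ⟨e1, e2, e3⟩ := rowOp_pow_W hsi hP1 hP2 hk hx
          refine ⟨e1, e2, fun q hq => ?_⟩
          rw [Finset.mem_insert] at hq
          rcases hq with rfl | hq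
          · rw [pow_succ'] at h0
            exact h0
          · exact e3 q hq)
        (fun x hx => rowOp_pow_W_zero hsi hP1 hP2 hx)
      obtain ⟨k, hk, h2⟩ := exists_le_mul _ h1
      have hdom := dom_mv mu hsi hk
      have hcard : (Up n \ insert (s, i) P).card ≤ m := by
        have h3 : Up n \ insert (s, i) P ⊂ Up n \ P := by
          rw [Finset.ssubset_iff_of_subset
            (Finset.sdiff_subset_sdiff le_rfl (Finset.subset_insert _ _))]
          refine ⟨(s, i), ?_, ?_⟩
          · rw [Finset.mem_sdiff, mem_Up]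
            exact ⟨hsi, hnot⟩
          · rw [Finset.mem_sdiff]
            exact fun h => h.2 (Finset.mem_insert_self _ _)
        have := Finset.card_lt_card h3
        omega
      obtain ⟨theta, h3, h4⟩ := ih (insert (s, i) P) (mv mu s i k) hcard hcl
        (by rw [hdom.1]; exact hD)
      refine ⟨theta, h3.trans hdom, h2.trans ?_⟩
      have h5 : mu i + 1 ≤ D + 1 := by
        have := Finset.single_le_sum (f := mu) (fun x _ => Nat.zero_le _) (Finset.mem_univ i)
        omega
      calc (mu i + 1) * Module.finrank ℂ (W n N a (insert (s, i) P) (mv mu s i k))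
          ≤ (D + 1) * ((D + 1) ^ m * Module.finrank ℂ (W n N a (Up n) theta)) :=
            Nat.mul_le_mul h5 h4
        _ = _ := by rw [pow_succ]; ring

end Vale.Agent.P181.H530.Torus
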