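import Vale.Agent.P181.H530.Torus

set_option autoImplicit false

/-!
# P181, [Z]: weight multiplicities are numbers of multisets of letters
-/

namespace Vale.Agent.P181.H530.Torus

open MvPolynomial Vale.Agent.P181 Vale.Agent.P181.H280 Vale.Agent.P181.FR Vale.Agent.P181.T4

variable {n N : ℕ}

lemma evalP_ren (τ : Equiv.Perm (Fin N)) (f : MvPolynomial (Fin n × Fin N) ℂ)
    (p : Fin N → Fin n → ℂ) : evalP N n (ren n τ f) p = evalP N n f (fun j => p (τ j)) := by
  rw [evalP_apply, evalP_apply, ren, eval_rename]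
  rfl

lemma mem_W_Up {a : ℕ} {theta : Fin n → ℕ} {f : MvPolynomial (Fin n × Fin N) ℂ} :
    f ∈ W n N a (Up n) theta ↔ (∀ τ : Equiv.Perm (Fin N), ren n τ f = f) ∧
      f ∈ HW n (Fin N) theta ∧ ColHom a f := by
  constructor
  · rintro ⟨h1, h2, h3⟩
    refine ⟨h1, ⟨fun v hv => (h2 v hv).1, fun s i hsi => h3 (s, i) (mem_Up.2 hsi)⟩, ?_⟩
    intro j v hv
    rw [weight_colW]
    exact (h2 v hv).2 j
  · rintro ⟨h1, ⟨h2, h3⟩, h4⟩
    refine ⟨h1, fun v hv => ⟨h2 v hv, fun j => ?_⟩, fun q hq => h3 q.1 q.2 (mem_Up.1 hq)⟩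
    rw [← weight_colW]
    exact h4 j hv

/-- The multiplicity is the dimension of the space of symmetric highest weight polynomials. -/
theorem plethMult_eq_W {a : ℕ} {theta : Fin n → ℕ} :
    plethMult N a n theta = Module.finrank ℂ (W n N a (Up n) theta) := by
  rw [T4.plethMult_eq]
  have h : HWSS N n a theta = (W n N a (Up n) theta).map (evalP N n) := by
    apply le_antisymm
    · rintro G ⟨⟨hG, hw⟩, hs⟩
      obtain ⟨f, hf, rfl⟩ := exists_evalP hG
      refine ⟨f, mem_W_Up.2 ⟨fun τ => ?_, mem_HW_iff_HWF.2 hw, hf⟩, rfl⟩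
      apply evalP_inj
      funext p
      rw [evalP_ren]
      exact hs τ p
    · rintro _ ⟨f, hf, rfl⟩
      obtain ⟨h1, h2, h3⟩ := mem_W_Up.1 hf
      refine ⟨⟨evalP_mem h3, HWF_evalP h2⟩, fun τ p => ?_⟩
      rw [← evalP_ren, h1]
  rw [h]
  exact (LinearEquiv.finrank_eq
    (Submodule.equivMapOfInjective (evalP N n) (evalP_injective N n) (W n N a (Up n) theta))).symm

/-! ### Multisets of letters -/

/-- The multisets of `N` vectors of total `a` which sum to `mu`. -/
def MS (n N a : ℕ) (mu : Fin n → ℕ) : Set (Multiset (Fin n → ℕ)) :=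
  {m | m.card = N ∧ (∀ v ∈ m, ∑ i, v i = a) ∧ m.sum = mu}

lemma exists_fam {X : Type*} {N : ℕ} (m : Multiset X) (hm : m.card = N) :
    ∃ g : Fin N → X, Multiset.map g Finset.univ.val = m := by
  induction m using Quotient.inductionOn with
  | h l =>
    subst hm
    refine ⟨fun j => l.get j, ?_⟩
    rw [Fin.univ_val_map]
    change ((List.ofFn fun j => l.get j : List X) : Multiset X) = (l : Multiset X)
    rw [List.ofFn_get]

lemma exists_perm {X : Type*} {N : ℕ} (f g : Fin N → X)
    (h : Multiset.map f Finset.univ.val = Multiset.map g Finset.univ.val) :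
    ∃ τ : Equiv.Perm (Fin N), ∀ j, g (τ j) = f j := by
  classical
  have hc : ∀ c : X, Fintype.card {j // f j = c} = Fintype.card {j // g j = c} := by
    intro c
    rw [Fintype.card_subtype, Fintype.card_subtype]
    have h1 := congrArg (Multiset.count c) h
    rw [Multiset.count_map, Multiset.count_map] at h1
    simp only [eq_comm (a := c)] at h1
    exact h1
  let e : ∀ c : X, {j // f j = c} ≃ {j // g j = c} := fun c => Fintype.equivOfCardEq (hc c)
  exact ⟨Equiv.ofFiberEquiv e, fun j => Equiv.ofFiberEquiv_map e j⟩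

lemma MS_finite (n N a : ℕ) (mu : Fin n → ℕ) : (MS n N a mu).Finite := by
  refine Set.Finite.subset (Set.finite_range
    (fun v : Fin N → Fin n → Fin (a + 1) =>
      Multiset.map (fun j : Fin N => fun i : Fin n => ((v j i : Fin (a + 1)) : ℕ))
        Finset.univ.val)) ?_
  rintro m ⟨h1, h2, -⟩
  obtain ⟨g, rfl⟩ := exists_fam m h1
  have hg : ∀ j i, g j i < a + 1 := by
    intro j i
    have h3 := h2 (g j) (Multiset.mem_map_of_mem g (Finset.mem_univ j))
    have h4 := Finset.single_le_sum (f := g j) (fun _ _ => Nat.zero_le _) (Finset.mem_univ i)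
    omega
  exact ⟨fun j i => ⟨g j i, hg j i⟩, rfl⟩

/-- The multiset of columns of an exponent vector. -/
def cols (v : Fin n × Fin N →₀ ℕ) : Multiset (Fin n → ℕ) :=
  Multiset.map (fun j : Fin N => fun i : Fin n => v (i, j)) Finset.univ.val

lemma card_cols (v : Fin n × Fin N →₀ ℕ) : (cols v).card = N := by
  rw [cols, Multiset.card_map]
  exact (Finset.card_univ).trans (Fintype.card_fin N)

lemma sum_cols (v : Fin n × Fin N →₀ ℕ) : (cols v).sum = fun i => ∑ j, v (i, j) := by
  have h : (cols v).sum = ∑ j : Fin N, fun i : Fin n => v (i, j) := rfl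
  rw [h]
  funext i
  rw [Finset.sum_apply]

lemma cols_mem_MS {a : ℕ} {mu : Fin n → ℕ} {v : Fin n × Fin N →₀ ℕ} :
    cols v ∈ MS n N a mu ↔ (∀ i, ∑ j, v (i, j) = mu i) ∧ ∀ j, ∑ i, v (i, j) = a := by
  constructor
  · rintro ⟨-, h2, h3⟩
    rw [sum_cols] at h3
    exact ⟨fun i => congrFun h3 i, fun j => h2 _ (Multiset.mem_map_of_mem _ (Finset.mem_univ j))⟩
  · rintro ⟨h1, h2⟩
    refine ⟨card_cols v, fun w hw => ?_, ?_⟩
    · obtain ⟨j, -, rfl⟩ := Multiset.mem_map.1 hw
      exact h2 j
    · rw [sum_cols]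
      funext i
      exact h1 i

/-- An exponent vector with given columns. -/
noncomputable def rep {a : ℕ} {mu : Fin n → ℕ} (s : MS n N a mu) : Fin n × Fin N →₀ ℕ :=
  Finsupp.equivFunOnFinite.symm (fun p => (exists_fam s.1 s.2.1).choose p.2 p.1)

lemma cols_rep {a : ℕ} {mu : Fin n → ℕ} (s : MS n N a mu) : cols (rep s) = s.1 := by
  exact (exists_fam s.1 s.2.1).choose_spec

/-- moving the columns of an exponent vector -/
lemma exists_perm_cols {v w : Fin n × Fin N →₀ ℕ} (h : cols v = cols w) :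
    ∃ τ : Equiv.Perm (Fin N), ∀ i j, w (i, τ j) = v (i, j) := by
  obtain ⟨τ, hτ⟩ := exists_perm _ _ h
  exact ⟨τ, fun i j => congrFun (hτ j) i⟩

/-- The permutation of the variables. -/
def pv (n : ℕ) (τ : Equiv.Perm (Fin N)) : Equiv.Perm (Fin n × Fin N) :=
  Equiv.prodCongr (Equiv.refl _) τ

lemma ren_eq (τ : Equiv.Perm (Fin N)) (f : MvPolynomial (Fin n × Fin N) ℂ) :
    ren n τ f = rename (pv n τ) f := rfl

lemma coeff_ren (τ : Equiv.Perm (Fin N)) (f : MvPolynomial (Fin n × Fin N) ℂ)
    {v w : Fin n × Fin N →₀ ℕ} (h : ∀ i j, w (i, τ j) = v (i, j)) :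
    coeff w (ren n τ f) = coeff v f := by
  have h1 : w = Finsupp.mapDomain (pv n τ) v := by
    ext ⟨i, j⟩
    have h2 : ((i, j) : Fin n × Fin N) = pv n τ (i, τ.symm j) := by
      simp [pv]
    rw [h2, Finsupp.mapDomain_apply (pv n τ).injective]
    exact h i (τ.symm j)
  rw [h1, ren_eq]
  exact coeff_rename_mapDomain _ (pv n τ).injective _ _

/-- The coefficients at the representatives. -/
noncomputable def Phi (n N a : ℕ) (mu : Fin n → ℕ) :
    W n N a ∅ mu →ₗ[ℂ] (MS n N a mu → ℂ) where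
  toFun f := fun s => coeff (rep s) (f : MvPolynomial (Fin n × Fin N) ℂ)
  map_add' f g := by
    funext s
    exact coeff_add _ _ _
  map_smul' c f := by
    funext s
    exact coeff_smul _ _ _

lemma Phi_apply {a : ℕ} {mu : Fin n → ℕ} (f : W n N a ∅ mu) (s : MS n N a mu) :
    Phi n N a mu f s = coeff (rep s) (f : MvPolynomial (Fin n × Fin N) ℂ) := rfl

lemma Phi_injective (n N a : ℕ) (mu : Fin n → ℕ) : Function.Injective (Phi n N a mu) := by
  rw [injective_iff_map_eq_zero]
  rintro ⟨f, hf⟩ h0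
  apply Subtype.ext
  by_contra hne
  obtain ⟨v, hv⟩ := MvPolynomial.ne_zero_iff.1 hne
  let s : MS n N a mu := ⟨cols v, cols_mem_MS.2 (hf.2.1 v hv)⟩
  obtain ⟨τ, hτ⟩ := exists_perm_cols (v := v) (w := rep s) (cols_rep s).symm
  have h1 := congrFun h0 s
  rw [Phi_apply] at h1
  dsimp only at h1
  rw [← hf.1 τ, coeff_ren τ f hτ] at h1
  exact hv h1

lemma symP_ren (τ : Equiv.Perm (Fin N)) (f : MvPolynomial (Fin n × Fin N) ℂ) :
    ren n τ (symP N n f) = symP N n f := by
  rw [symP_apply, map_sum]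
  have h1 : ∀ s : Equiv.Perm (Fin N), ren n τ (rename (fun ij : Fin n × Fin N => (ij.1, s ij.2)) f) =
      rename (fun ij : Fin n × Fin N => (ij.1, (τ * s) ij.2)) f := by
    intro s
    rw [ren, rename_rename]
    rfl
  rw [Finset.sum_congr rfl (fun s _ => h1 s)]
  exact Fintype.sum_equiv (Equiv.mulLeft τ) _ _ (fun s => rfl)

lemma mapDomain_pv (τ : Equiv.Perm (Fin N)) (v : Fin n × Fin N →₀ ℕ) (i : Fin n) (j : Fin N) :
    Finsupp.mapDomain (pv n τ) v (i, τ j) = v (i, j) :=
  Finsupp.mapDomain_apply (pv n τ).injective v (i, j)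

lemma cols_mapDomain (τ : Equiv.Perm (Fin N)) (v : Fin n × Fin N →₀ ℕ) :
    cols (Finsupp.mapDomain (pv n τ) v) = cols v := by
  have h1 : cols v = Multiset.map (fun j : Fin N => fun i : Fin n =>
      Finsupp.mapDomain (pv n τ) v (i, j)) (Multiset.map τ Finset.univ.val) := by
    rw [Multiset.map_map, cols]
    refine Multiset.map_congr rfl fun j _ => ?_
    funext i
    exact (mapDomain_pv τ v i j).symm
  rw [h1, Multiset.map_univ_val_equiv, cols]

lemma coeff_symP_mono {a : ℕ} {mu : Fin n → ℕ} (s : MS n N a mu) (v : Fin n × Fin N →₀ ℕ) :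
    coeff v (symP N n (monomial (rep s) (1 : ℂ))) =
      ((Finset.univ.filter (fun σ : Equiv.Perm (Fin N) =>
        Finsupp.mapDomain (pv n σ) (rep s) = v)).card : ℂ) := by
  classical
  rw [symP_apply, coeff_sum, Finset.card_filter, Nat.cast_sum]
  refine Finset.sum_congr rfl fun σ _ => ?_
  rw [rename_monomial, coeff_monomial]
  change (if Finsupp.mapDomain (pv n σ) (rep s) = v then (1 : ℂ) else 0) = _
  split_ifs <;> simp

lemma symP_mono_mem {a : ℕ} {mu : Fin n → ℕ} (s : MS n N a mu) :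
    symP N n (monomial (rep s) 1) ∈ W n N a ∅ mu := by
  classical
  refine ⟨fun τ => symP_ren τ _, fun v hv => ?_, fun q hq => absurd hq (Finset.notMem_empty q)⟩
  rw [coeff_symP_mono, Nat.cast_ne_zero, Finset.card_ne_zero] at hv
  obtain ⟨σ, hσ⟩ := hv
  have h1 := (Finset.mem_filter.1 hσ).2
  rw [← cols_mem_MS, ← h1, cols_mapDomain, cols_rep]
  exact s.2

lemma Phi_mono {a : ℕ} {mu : Fin n → ℕ} (s t : MS n N a mu) :
    Phi n N a mu ⟨symP N n (monomial (rep s) 1), symP_mono_mem s⟩ t ≠ 0 ↔ s = t := by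
  classical
  rw [Phi_apply]
  dsimp only
  rw [coeff_symP_mono, Nat.cast_ne_zero, Finset.card_ne_zero]
  constructor
  · rintro ⟨σ, hσ⟩
    have h1 := congrArg cols (Finset.mem_filter.1 hσ).2
    rw [cols_mapDomain, cols_rep, cols_rep] at h1
    exact Subtype.ext h1
  · rintro rfl
    refine ⟨1, Finset.mem_filter.2 ⟨Finset.mem_univ _, ?_⟩⟩
    exact Finsupp.mapDomain_id

/-- The weight multiplicities. -/
theorem finrank_W_empty (n N a : ℕ) (mu : Fin n → ℕ) :
    Module.finrank ℂ (W n N a ∅ mu) = (MS n N a mu).ncard := by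
  classical
  have hfin : Finite (MS n N a mu) := (MS_finite n N a mu).to_subtype
  have := Fintype.ofFinite (MS n N a mu)
  have hsurj : Function.Surjective (Phi n N a mu) := by
    intro g
    let m : MS n N a mu → W n N a ∅ mu := fun s =>
      ⟨symP N n (monomial (rep s) 1), symP_mono_mem s⟩
    refine ⟨∑ s, (g s / Phi n N a mu (m s) s) • m s, ?_⟩
    funext t
    rw [map_sum, Finset.sum_apply, Finset.sum_eq_single t]
    · rw [map_smul, Pi.smul_apply, smul_eq_mul]
      exact div_mul_cancel₀ _ ((Phi_mono t t).2 rfl)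
    · intro s _ hs
      rw [map_smul, Pi.smul_apply, smul_eq_mul]
      have h1 : Phi n N a mu (m s) t = 0 := by
        by_contra h
        exact hs ((Phi_mono s t).1 h)
      rw [h1, mul_zero]
    · intro h
      exact absurd (Finset.mem_univ _) h
  have h1 := LinearEquiv.finrank_eq
    (LinearEquiv.ofBijective (Phi n N a mu) ⟨Phi_injective n N a mu, hsurj⟩)
  rw [h1, Module.finrank_fintype_fun_eq_card, ← Nat.card_eq_fintype_card]
  rfl

/-- **(h1)** -/
theorem plethMult_le_ncard (n N a : ℕ) (theta : Fin n → ℕ) :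
    plethMult N a n theta ≤ (MS n N a theta).ncard := by
  rw [plethMult_eq_W, ← finrank_W_empty]
  apply Submodule.finrank_mono
  intro f hf
  exact ⟨hf.1, hf.2.1, fun q hq => absurd hq (Finset.notMem_empty q)⟩

lemma MS_total {a : ℕ} {mu : Fin n → ℕ} {s : Multiset (Fin n → ℕ)} (hs : s ∈ MS n N a mu) :
    ∑ i, mu i = N * a := by
  obtain ⟨h1, h2, h3⟩ := hs
  have h4 : ∀ t : Multiset (Fin n → ℕ), (∀ v ∈ t, ∑ i, v i = a) → ∑ i, t.sum i = t.card * a := by
    intro t
    induction t using Multiset.induction_on with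
    | empty =>
      intro _
      simp
    | cons v t ih =>
      intro ht
      rw [Multiset.sum_cons, Multiset.card_cons]
      simp only [Pi.add_apply, Finset.sum_add_distrib]
      rw [ih (fun w hw => ht w (Multiset.mem_cons_of_mem hw)),
        ht v (Multiset.mem_cons_self v t)]
      ring
  rw [← h3, h4 s h2, h1]

/-- **(h2)** Every weight multiplicity is at most a polynomial times the multiplicity of a
dominating highest weight. -/
theorem exists_plethMult {a : ℕ} (mu : Fin n → ℕ) :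
    ∃ theta : Fin n → ℕ, Dom theta mu ∧
      (MS n N a mu).ncard ≤ (N * a + 1) ^ (n * n) * plethMult N a n theta := by
  classical
  rcases Set.eq_empty_or_nonempty (MS n N a mu) with h | ⟨s, hs⟩
  · refine ⟨mu, Dom.refl mu, ?_⟩
    rw [h, Set.ncard_empty]
    exact Nat.zero_le _
  · obtain ⟨theta, h1, h2⟩ := exists_theta (n := n) (N := N) (a := a) (D := N * a) (n * n) ∅ mu
      (by
        rw [Finset.sdiff_empty]
        refine (Finset.card_le_univ _).trans ?_
        rw [Fintype.card_prod, Fintype.card_fin])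
      (fun q hq => absurd hq (Finset.notMem_empty q)) (MS_total hs).le
    refine ⟨theta, h1, ?_⟩
    rwa [finrank_W_empty, ← plethMult_eq_W] at h2

end Vale.Agent.P181.H530.Torus
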