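import Vale.Agent.P181.H530.Torus2

set_option autoImplicit false

/-!
# P181, [Z]: letters without the first row
-/

namespace Vale.Agent.P181.H530.Torus

open Vale.Agent.P181.H280

variable {h N : ℕ}

/-- The multisets of at most `N` nonzero vectors of total at most `a` which sum to `w`. -/
def LS (h N a : ℕ) (w : Fin h → ℕ) : Set (Multiset (Fin h → ℕ)) :=
  {m | m.card ≤ N ∧ (∀ v ∈ m, v ≠ 0 ∧ ∑ i, v i ≤ a) ∧ m.sum = w}

/-- The letter with the first row filled up. -/
def ext (a : ℕ) (v : Fin h → ℕ) : Fin (h + 1) → ℕ := Fin.cons (a - ∑ i, v i) v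

lemma tail_ext (a : ℕ) (v : Fin h → ℕ) : Fin.tail (ext a v) = v := Fin.tail_cons _ _

lemma sum_ext {a : ℕ} {v : Fin h → ℕ} (hv : ∑ i, v i ≤ a) : ∑ i, ext a v i = a := by
  rw [Fin.sum_univ_succ]
  simp only [ext, Fin.cons_zero, Fin.cons_succ]
  omega

lemma ext_tail {a : ℕ} {v : Fin (h + 1) → ℕ} (hv : ∑ i, v i = a) : ext a (Fin.tail v) = v := by
  rw [Fin.sum_univ_succ] at hv
  have h1 : a - ∑ i, Fin.tail v i = v 0 := by
    have h2 : ∑ i, Fin.tail v i = ∑ i : Fin h, v i.succ := rfl
    omega
  rw [ext, h1, Fin.cons_self_tail]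

/-- Filling up with trivial letters. -/
def fill (N a : ℕ) (m : Multiset (Fin h → ℕ)) : Multiset (Fin (h + 1) → ℕ) :=
  m.map (ext a) + Multiset.replicate (N - m.card) (ext a 0)

/-- The nontrivial letters without their first row. -/
noncomputable def red (m : Multiset (Fin (h + 1) → ℕ)) : Multiset (Fin h → ℕ) := by
  classical exact (m.map Fin.tail).filter (fun v => v ≠ 0)

lemma red_fill {a : ℕ} {m : Multiset (Fin h → ℕ)} (hm : ∀ v ∈ m, v ≠ 0) :
    red (fill N a m) = m := by
  classical
  have h1 : (fill N a m).map Fin.tail = m + Multiset.replicate (N - m.card) 0 := by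
    rw [fill, Multiset.map_add, Multiset.map_map, Multiset.map_replicate, tail_ext]
    congr 1
    conv_rhs => rw [← Multiset.map_id m]
    exact Multiset.map_congr rfl fun v _ => tail_ext a v
  have h2 : Multiset.filter (fun v : Fin h → ℕ => v ≠ 0)
      (Multiset.replicate (N - m.card) (0 : Fin h → ℕ)) = 0 := by
    rw [Multiset.filter_eq_nil]
    intro v hv
    rw [Multiset.eq_of_mem_replicate hv]
    simp
  unfold red
  rw [h1, Multiset.filter_add, Multiset.filter_eq_self.2 hm, h2, add_zero]

lemma tail_red_add (m : Multiset (Fin (h + 1) → ℕ)) :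
    m.map Fin.tail = red m + Multiset.replicate (m.card - (red m).card) 0 := by
  classical
  have h1 := Multiset.filter_add_not (fun v : Fin h → ℕ => v ≠ 0) (m.map Fin.tail)
  have h2 : Multiset.filter (fun v : Fin h → ℕ => ¬ v ≠ 0) (m.map Fin.tail) =
      Multiset.replicate (Multiset.card (Multiset.filter (fun v : Fin h → ℕ => ¬ v ≠ 0)
        (m.map Fin.tail))) 0 := by
    rw [Multiset.eq_replicate]
    refine ⟨rfl, fun v hv => ?_⟩
    simpa using (Multiset.mem_filter.1 hv).2
  have h3 := congrArg Multiset.card h1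
  rw [Multiset.card_add, Multiset.card_map] at h3
  have h4 : red m = Multiset.filter (fun v : Fin h → ℕ => v ≠ 0) (m.map Fin.tail) := rfl
  rw [← h4] at h1 h3
  rw [h2] at h1
  rw [show m.card - (red m).card = Multiset.card (Multiset.filter (fun v : Fin h → ℕ => ¬ v ≠ 0)
        (m.map Fin.tail)) by omega]
  exact h1.symm

lemma fill_red {a : ℕ} {m : Multiset (Fin (h + 1) → ℕ)} (hN : m.card = N)
    (hm : ∀ v ∈ m, ∑ i, v i = a) : fill N a (red m) = m := by
  have h1 : (m.map Fin.tail).map (ext a) = m := by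
    rw [Multiset.map_map]
    conv_rhs => rw [← Multiset.map_id m]
    exact Multiset.map_congr rfl fun v hv => ext_tail (hm v hv)
  rw [tail_red_add, Multiset.map_add, Multiset.map_replicate] at h1
  rw [fill, ← hN]
  exact h1

lemma sum_tail (m : Multiset (Fin (h + 1) → ℕ)) : (m.map Fin.tail).sum = Fin.tail m.sum := by
  induction m using Multiset.induction_on with
  | empty => rfl
  | cons v t ih =>
    rw [Multiset.map_cons, Multiset.sum_cons, Multiset.sum_cons, ih]
    rfl

lemma sum_red (m : Multiset (Fin (h + 1) → ℕ)) : (red m).sum = Fin.tail m.sum := by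
  have h1 := congrArg Multiset.sum (tail_red_add m)
  rw [Multiset.sum_add, Multiset.sum_replicate, smul_zero, add_zero, sum_tail] at h1
  exact h1.symm

theorem ncard_MS_succ (h N a : ℕ) (mu : Fin (h + 1) → ℕ) (htot : ∑ i, mu i = N * a) :
    (MS (h + 1) N a mu).ncard = (LS h N a (Fin.tail mu)).ncard := by
  classical
  have hinj : Set.InjOn (fill N a) (LS h N a (Fin.tail mu)) := by
    intro m hm m' hm' he
    rw [← red_fill (N := N) (a := a) (fun v hv => (hm.2.1 v hv).1), he,
      red_fill (fun v hv => (hm'.2.1 v hv).1)]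
  rw [← hinj.ncard_image]
  congr 1
  ext m
  constructor
  · intro hm
    refine ⟨red m, ⟨?_, fun v hv => ?_, ?_⟩, fill_red hm.1 hm.2.1⟩
    · have h1 := congrArg Multiset.card (tail_red_add m)
      rw [Multiset.card_add, Multiset.card_map, Multiset.card_replicate, hm.1] at h1
      omega
    · have h1 := Multiset.mem_filter.1 (show v ∈ (m.map Fin.tail).filter (fun v => v ≠ 0) from hv)
      obtain ⟨u, hu, rfl⟩ := Multiset.mem_map.1 h1.1
      refine ⟨h1.2, ?_⟩
      have h2 := hm.2.1 u hu
      rw [Fin.sum_univ_succ] at h2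
      have h3 : ∑ i, Fin.tail u i = ∑ i : Fin h, u i.succ := rfl
      omega
    · rw [sum_red, hm.2.2]
  · rintro ⟨m', ⟨h1, h2, h3⟩, rfl⟩
    have hcard : (fill N a m').card = N := by
      rw [fill, Multiset.card_add, Multiset.card_map, Multiset.card_replicate]
      omega
    have hlet : ∀ v ∈ fill N a m', ∑ i, v i = a := by
      intro v hv
      rw [fill, Multiset.mem_add] at hv
      rcases hv with hv | hv
      · obtain ⟨u, hu, rfl⟩ := Multiset.mem_map.1 hv
        exact sum_ext (h2 u hu).2
      · rw [Multiset.eq_of_mem_replicate hv]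
        exact sum_ext (by simp)
    have hmem : fill N a m' ∈ MS (h + 1) N a (fill N a m').sum := ⟨hcard, hlet, rfl⟩
    refine ⟨hcard, hlet, ?_⟩
    have h4 : Fin.tail (fill N a m').sum = Fin.tail mu := by
      rw [← sum_red, red_fill (fun v hv => (h2 v hv).1), h3]
    have h5 := MS_total hmem
    rw [← htot, Fin.sum_univ_succ, Fin.sum_univ_succ] at h5
    have h6 : ∀ i : Fin h, (fill N a m').sum i.succ = mu i.succ := fun i => congrFun h4 i
    simp only [h6] at h5
    funext i
    refine Fin.cases ?_ h6 i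
    omega

/-- **(h1)** in letters without the first row -/
theorem plethMult_le_ncard_LS (h N a : ℕ) (theta : Fin (h + 1) → ℕ)
    (htot : ∑ i, theta i = N * a) :
    plethMult N a (h + 1) theta ≤ (LS h N a (Fin.tail theta)).ncard := by
  rw [← ncard_MS_succ h N a theta htot]
  exact plethMult_le_ncard _ _ _ _

/-- **(h2)** in letters without the first row -/
theorem exists_plethMult_LS (h N a : ℕ) (mu : Fin (h + 1) → ℕ) (htot : ∑ i, mu i = N * a) :
    ∃ theta : Fin (h + 1) → ℕ, Dom theta mu ∧ (LS h N a (Fin.tail mu)).ncard ≤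
      (N * a + 1) ^ ((h + 1) * (h + 1)) * plethMult N a (h + 1) theta := by
  rw [← ncard_MS_succ h N a mu htot]
  exact exists_plethMult mu

end Vale.Agent.P181.H530.Torus
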